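import Crest.Agent.X262.Mod79.Neg

/-!
# Row 262, MOD (helper79): augmented base loci, exceptional divisors, positive parts

* `Gn a V` : `a` is generated by a global section at `V`;
* `gn_of_loc_le`, `loc_le_of_gn`, `Prm.gn` : primes of a model are not in the augmented base locus;
* `exists_exc` : an effective exceptional divisor which is anti-ample over the model;
* `Pos a P` : `P` is the free positive part of `a`; `Pos.eqOn`, `Pos.prm`, `pos_of_eqOn`,
  `Pos.unique`, `Pos.add_le`;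
* `QCar H a`, `car_of_prm` : a small morphism onto a `ℚ`-factorial model is an isomorphism.
-/

set_option autoImplicit false
set_option linter.unusedSectionVars false

noncomputable section

namespace Crest.Agent.X262.Mod

open Crest.Agent.X277 Crest.Agent.X277.BD Crest.Agent.X277.Pst

universe u

section Formal

variable {k F : Type*} [Field k] [Field F] [Algebra k F]
variable {H H' P Q a b c e : BD k F} {V W : RZ k F} {f g : F}

/-- `a` is generated by a global section at `V` -/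
def Gn (a : BD k F) (V : RZ k F) : Prop := ∃ g ∈ a.Sec, V.v g = a.val V

theorem gn_of_free (h : a.Free) (V : RZ k F) : Gn a V := h.exists_gen V

theorem Gn.add (ha : Gn a V) (hb : Gn b V) : Gn (a + b) V := by
  obtain ⟨f, h1, h2⟩ := ha
  obtain ⟨g, h3, h4⟩ := hb
  exact ⟨f * g, mul_mem_Sec h1 h3, by rw [map_mul, h2, h4, val_add]⟩

theorem Gn.nsmul (ha : Gn a V) (m : ℕ) : Gn (m • a) V := by
  obtain ⟨f, h1, h2⟩ := ha
  exact ⟨f ^ m, pow_mem_Sec h1 m, by rw [map_pow, h2, val_nsmul]⟩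

theorem Gn.eff (ha : Gn a V) : Eff a := by
  obtain ⟨f, h1, h2⟩ := ha
  exact ⟨f, h1, ne_of_val h2⟩

theorem Gn.of_le (ha : Gn a V) (h : a ≤ b) (h1 : b.val V ≤ a.val V) : Gn b V := by
  obtain ⟨f, h2, h3⟩ := ha
  exact ⟨f, Sec_mono h h2, h3.trans ((h V).antisymm h1)⟩


theorem Gn.val_le (ha : Gn a V) (h : a.Sec ≤ b.Sec) : a.val V ≤ b.val V := by
  obtain ⟨f, h1, h2⟩ := ha
  exact h2 ▸ h h1 V

theorem Gn.mono (hH : H.Free) {m n : ℕ} (h : Gn (m • H + a) V) (hmn : m ≤ n) :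
    Gn (n • H + a) V := by
  obtain ⟨l, rfl⟩ := Nat.exists_eq_add_of_le hmn
  rw [add_nsmul, add_right_comm]
  exact h.add (gn_of_free (hH.nsmul l) V)

theorem loc_le_add_gn (h : Gn b V) : loc H V ≤ loc (H + b) V := by
  rintro x ⟨m, g, h1, h2, h3⟩
  obtain ⟨s, h4, h5⟩ := h.nsmul m
  exact ⟨m, g * s, nsmul_add H b m ▸ mul_mem_Sec h1 h4,
    by rw [map_mul, h2, h5, nsmul_add, val_add],
    by rw [← mul_assoc, nsmul_add]; exact mul_mem_Sec h3 h4⟩

theorem loc_le_of_gn {m : ℕ} (h : Gn (m • H - b) V) : loc b V ≤ loc H V := by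
  have h1 := loc_le_add_gn (H := b) h
  rw [add_sub_cancel] at h1
  exact h1.trans (loc_nsmul_le H m V)

theorem gn_of_loc_le (hb : b.Free) (h : loc b V ≤ loc H V) : ∃ m : ℕ, Gn (m • H - b) V := by
  classical
  obtain ⟨s, h1, h2⟩ := hb
  obtain ⟨g, hg, h3⟩ := h2 V
  have h0 := ne_of_val h3
  obtain ⟨m, t, h4, h5, h6⟩ := Neg.exists_gen_fin (A := H) (V := V) (s.image (· / g)) (by
    intro x hx
    obtain ⟨y, hy, rfl⟩ := Finset.mem_image.1 hx
    exact h (div_mem_loc (m := 1) (by simpa using h1 y hy) (by simpa using h1 g hg)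
      (by simpa using h3)))
  refine ⟨m, t / g, fun W => ?_, by rw [map_div₀, h5, h3, val_sub]⟩
  obtain ⟨y, hy, h7⟩ := h2 W
  have h8 := h6 _ (Finset.mem_image_of_mem _ hy) W
  rw [val_sub, le_div_iff₀ (val_pos _ _), ← h7, ← map_mul]
  rwa [show t / g * y = y / g * t by ring]

/-- if `V` is the local ring at its centre, it is not in the augmented base locus -/
theorem gn_of_le_loc (hH : H.Free) (h : ∀ x ∈ V.1, x ∈ loc H V) (a : BD k F) :
    ∃ m₀ : ℕ, ∀ m, m₀ ≤ m → Gn (m • H + a) V := by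
  obtain ⟨b, c, hb, hc, rfl⟩ := exists_sub a
  obtain ⟨m, hm⟩ := gn_of_loc_le (H := H) (V := V) hc fun x hx => h x (mem_of_loc hx)
  refine ⟨m, fun n hn => Gn.mono hH ?_ hn⟩
  rw [show m • H + (b - c) = m • H - c + b by abel]
  exact hm.add (gn_of_free hb V)

/-- `P` is the free positive part of `a` -/
structure Pos (a P : BD k F) : Prop where
  free : P.Free
  le : P ≤ a
  sec : ∀ m : ℕ, (m • a).Sec ≤ (m • P).Sec



theorem Pos.nsmul (h : Pos a P) (n : ℕ) : Pos (n • a) (n • P) :=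
  ⟨h.free.nsmul n, nsmul_le_nsmul_right h.le n, fun m => by
    simpa only [smul_smul] using h.sec (m * n)⟩

theorem Pos.add_pr (h : Pos a P) (f : F) : Pos (a + pr k f) (P + pr k f) := by
  by_cases hf : f = 0
  · simpa [hf, pr_zero] using h
  refine ⟨h.free.add (free_pr f), add_le_add_left h.le _, fun m g hg => ?_⟩
  rw [smul_add, ← pr_pow hf, mem_Sec_add_pr (pow_ne_zero m hf)] at hg ⊢
  exact h.sec m hg

/-- the positive part is the largest semiample minorant -/
theorem Pos.ge {r : ℕ} (h : Pos a P) (hr : 0 < r) (hQ : (r • Q).Free) (h1 : Q ≤ a) : Q ≤ P :=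
  le_of_nsmul_le hr (hQ.le_iff.2 ((Sec_mono (nsmul_le_nsmul_right h1 r)).trans (h.sec r)))

theorem Pos.ge_free (h : Pos a P) (hQ : Q.Free) (h1 : Q ≤ a) : Q ≤ P :=
  h.ge one_pos (by rwa [one_nsmul]) h1

theorem Pos.unique (h : Pos a P) (h' : Pos a Q) : P = Q :=
  le_antisymm (h'.ge_free h.free h.le) (h.ge_free h'.free h'.le)

theorem Pos.mono (h : Pos a P) (h' : Pos b Q) (hab : a ≤ b) : P ≤ Q :=
  h'.ge_free h.free (h.le.trans hab)

/-- concavity of the positive part -/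
theorem Pos.add_le {R : BD k F} (h : Pos a P) (h' : Pos b Q) (hR : Pos (a + b) R) : P + Q ≤ R :=
  hR.ge_free (h.free.add h'.free) (add_le_add h.le h'.le)

theorem Pos.of_le (h : Pos a P) (h1 : P ≤ b) (h2 : b ≤ a) : Pos b P :=
  ⟨h.free, h1, fun m => (Sec_mono (nsmul_le_nsmul_right h2 m)).trans (h.sec m)⟩

theorem Pos.of_nsmul {n : ℕ} (hn : 0 < n) (hP : P.Free) (h : Pos (n • a) (n • P)) : Pos a P := by
  refine ⟨hP, le_of_nsmul_le hn h.le, fun m g hg V => ?_⟩
  have h1 := h.sec m (by rw [smul_comm]; exact pow_mem_Sec hg n) V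
  rw [smul_comm, val_nsmul, map_pow] at h1
  exact (pow_le_pow_iff_left₀ zero_le zero_le hn.ne').1 h1


theorem Pos.gn (h : Pos a P) (h1 : P.val V = a.val V) : Gn a V :=
  (gn_of_free h.free V).of_le h.le h1.ge

theorem Pos.big_iff (h : Pos a P) : Big P ↔ Big a := by
  refine ⟨fun hP => hP.mono h.le, fun ha y => ?_⟩
  obtain ⟨c, -, hc, h1⟩ := exists_free_ge y
  obtain ⟨c', hc', -, h2⟩ := exists_free_ge c
  obtain ⟨m, hm, w, h3, h4⟩ := ha c'
  refine ⟨m, hm, w, Sec_mono (sub_le_sub_left (h1.trans h2) _) fun V => ?_, h4⟩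
  obtain ⟨s, h5, h6⟩ := hc'.exists_gen V
  have h7 := h.sec m (by simpa using mul_mem_Sec h3 h5) V
  rwa [val_sub, le_div_iff₀ (val_pos _ _), ← h6, ← map_mul]

theorem Pos.isMod (h : Pos a P) (ha : Big a) : IsMod P := isMod_iff.2 ⟨h.free, h.big_iff.2 ha⟩

/-- the trace of `a` on the `H`-model is `ℚ`-Cartier -/
def QCar (H a : BD k F) : Prop := ∃ (r : ℕ) (b : BD k F), 0 < r ∧ Car H b ∧ EqOn H b (r • a)



theorem QCar.add (ha : QCar H a) (hb : QCar H b) : QCar H (a + b) := by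
  obtain ⟨r, c, h1, h2, h3⟩ := ha
  obtain ⟨s, d, h4, h5, h6⟩ := hb
  refine ⟨r * s, s • c + r • d, mul_pos h1 h4, (h2.nsmul s).add (h5.nsmul r), ?_⟩
  convert (h3.nsmul s).add (h6.nsmul r) using 1
  rw [smul_add, smul_smul, smul_smul, mul_comm s r]

theorem QCar.neg (ha : QCar H a) : QCar H (-a) := by
  obtain ⟨r, c, h1, h2, h3⟩ := ha
  exact ⟨r, -c, h1, h2.neg, by simpa using h3.neg⟩

theorem QCar.of_nsmul {m : ℕ} (hm : 0 < m) (ha : QCar H (m • a)) : QCar H a := by
  obtain ⟨r, c, h1, h2, h3⟩ := ha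
  exact ⟨r * m, c, mul_pos h1 hm, h2, by rwa [mul_smul]⟩

end Formal

variable {k F : Type u} [Field k] [Field F] [Algebra k F] [CharZero k] [Algebra.EssFiniteType k F]
variable {H H' P Q a b c e : BD k F} {V W : RZ k F} {f g : F}

/-- a prime of the model is not in the augmented base locus -/
theorem IsMod.gn (hH : IsMod H) (hV : Prm H V) (a : BD k F) :
    ∃ m₀ : ℕ, ∀ m, m₀ ≤ m → Gn (m • H + a) V :=
  gn_of_le_loc hH.free (fun _ hx => Neg.le_loc hH.free hH.bir hV hx) a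

theorem prm_of_gn {m : ℕ} (hb : Prm b V) (h : Gn (m • H - b) V) : Prm H V :=
  prm_of_loc_le (loc_le_of_gn h) hb


theorem IsMod.fin_val (hH : IsMod H) (a : BD k F) : {V : RZ k F | Prm H V ∧ a.val V ≠ 1}.Finite :=
  Pst.fin_val hH.free hH.bir a

/-- a higher model has finitely many exceptional primes -/
theorem IsMod.fin_exc (hH : IsMod H) (hH' : IsMod H') :
    {V : RZ k F | Prm H' V ∧ ¬ Prm H V}.Finite := by
  obtain ⟨m, w, h1, h2⟩ := Rgr.exists_le hH.bir H'
  refine (hH'.fin_val (m • H - H' - pr k w)).subset fun V hV => ⟨hV.1, fun h => hV.2 ?_⟩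
  refine prm_of_gn (m := m) hV.1 ⟨w, (pr_le_iff h1).1 (le_sub_iff_add_le'.2 h2), ?_⟩
  rw [val_sub, div_eq_one_iff_eq (val_ne _ _), val_pr h1] at h
  exact h.symm

/-- the reflexive sheaf of the trace of `a` is generated in codimension one -/
theorem IsMod.exists_mov (hH : IsMod H) (a : BD k F) : ∃ m₀ : ℕ, ∀ m, m₀ ≤ m →
    ∃ u : BD k F, u.Free ∧ u ≤ m • H + a ∧ EqOn H u (m • H + a) := by
  classical
  obtain ⟨c, w, h1, h2⟩ := Rgr.exists_le hH.bir (-a)
  have h3 : pr k w ≤ c • H + a := by rwa [neg_add_le_iff_le_add, add_comm] at h2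
  have h4 := hH.fin_val (c • H + a - pr k w)
  choose n hn using fun V : h4.toFinset => hH.gn (h4.mem_toFinset.1 V.2).1 a
  obtain ⟨N, hN⟩ := (Set.finite_range n).bddAbove
  have key : ∃ u : BD k F, u.Free ∧ u ≤ (c + N) • H + a ∧ EqOn H u ((c + N) • H + a) := by
    choose s hs hs' using fun V : h4.toFinset =>
      hn V (c + N) ((hN ⟨V, rfl⟩).trans (Nat.le_add_left N c))
    have h5 : pr k w + N • H ≤ (c + N) • H + a := by
      rw [add_nsmul, add_right_comm]
      exact add_le_add_left h3 _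
    have h6 : ∀ T : Finset h4.toFinset, ∃ u : BD k F, u.Free ∧ u ≤ (c + N) • H + a ∧
        pr k w + N • H ≤ u ∧ ∀ V ∈ T, pr k (s V) ≤ u := by
      intro T
      induction T using Finset.induction_on with
      | empty => exact ⟨_, (free_pr w).add (hH.free.nsmul N), h5, le_rfl, by simp⟩
      | insert V T _ ih =>
        obtain ⟨u, h7, h8, h9, h10⟩ := ih
        refine ⟨u ⊔ pr k (s V), h7.sup (free_pr _),
          sup_le h8 ((pr_le_iff (ne_of_val (hs' V))).2 (hs V)), h9.trans le_sup_left, ?_⟩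
        intro W hW
        rcases Finset.mem_insert.1 hW with rfl | hW
        · exact le_sup_right
        · exact (h10 W hW).trans le_sup_left
    obtain ⟨u, h7, h8, h9, h10⟩ := h6 Finset.univ
    refine ⟨u, h7, h8, fun V hV => (h8 V).antisymm ?_⟩
    by_cases h11 : (c • H + a - pr k w).val V = 1
    · refine le_trans (le_of_eq ?_) (h9 V)
      rw [val_sub, div_eq_one_iff_eq (val_ne _ _)] at h11
      rw [add_nsmul, add_right_comm, val_add, h11, val_add]
    · have h12 := h10 ⟨V, h4.mem_toFinset.2 ⟨hV, h11⟩⟩ (Finset.mem_univ _) V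
      rwa [val_pr (ne_of_val (hs' _)), hs' ⟨V, h4.mem_toFinset.2 ⟨hV, h11⟩⟩] at h12
  obtain ⟨u, h5, h6, h7⟩ := key
  refine ⟨c + N, fun m hm => ?_⟩
  obtain ⟨l, rfl⟩ := Nat.exists_eq_add_of_le hm
  refine ⟨u + l • H, h5.add (hH.free.nsmul l), ?_, ?_⟩ <;> rw [add_nsmul _ _ l, add_right_comm]
  · exact add_le_add_left h6 _
  · exact h7.add EqOn.rfl

/-- an effective exceptional divisor which is anti-ample over the model; off its support the
`H`-model dominates the `b`-model -/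
theorem IsMod.exists_exc (hH : IsMod H) (b : BD k F) : ∃ (m : ℕ) (e : BD k F), 0 ≤ e ∧
    EqOn H e 0 ∧ (m • H - b - e).Free ∧ ∀ V, e.val V = 1 → loc b V ≤ loc H V := by
  obtain ⟨m, hm⟩ := hH.exists_mov (-b)
  obtain ⟨u, h1, h2, h3⟩ := hm m le_rfl
  rw [← sub_eq_add_neg] at h2 h3
  refine ⟨m, m • H - b - u, sub_nonneg.2 h2, eqOn_sub.2 h3.symm, by simpa using h1,
    fun V hV => loc_le_of_gn (m := m) ((gn_of_free h1 V).of_le h2 ?_)⟩
  rw [val_sub, div_eq_one_iff_eq (val_ne _ _)] at hV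
  exact hV.le

/-- every exceptional divisorial valuation lies in an effective exceptional divisor -/
theorem IsMod.exists_exc_pos (hH : IsMod H) (hV : Dvs V) (h : ¬ Prm H V) :
    ∃ e : BD k F, 0 ≤ e ∧ EqOn H e 0 ∧ RSa H (-e) ∧ 1 < e.val V := by
  obtain ⟨b, hb, h1⟩ := Rgr.exists_prm hV
  obtain ⟨m, e, h2, h3, h4, h5⟩ := hH.exists_exc b
  refine ⟨e, h2, h3, ⟨1, m, one_pos, ?_⟩,
    lt_of_le_of_ne (h2 V) fun h6 => h (prm_of_loc_le (h5 V h6.symm) h1)⟩
  convert h4.add hb using 1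
  rw [one_nsmul]
  abel

/-- the negative part is exceptional -/
theorem Pos.eqOn (h : Pos a P) (ha : Big a) : EqOn P P a := fun V hV => by
  obtain ⟨m, hm⟩ := (h.isMod ha).gn hV (a - P)
  have h1 := (hm (m + 1) m.le_succ).val_le (b := (m + 1) • P) (le_trans (Sec_mono (by
    rw [succ_nsmul, succ_nsmul, add_assoc, add_sub_cancel]
    exact add_le_add_left (nsmul_le_nsmul_right h.le m) _)) (h.sec (m + 1)))
  rw [val_add, mul_le_iff_le_one_right (val_pos _ _), val_sub, div_le_one₀ (val_pos _ _)] at h1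
  exact (h.le V).antisymm h1

theorem pos_of_eqOn (hH : IsMod H) (hP : P.Free) (h1 : Car H P) (h2 : P ≤ a) (h3 : LeOn H a P) :
    Pos a P := ⟨hP, h2, fun m => (h1.nsmul m).Sec_le hH (h3.nsmul m)⟩

theorem Pos.add_exc (h : Pos a P) (hH : IsMod H) (ha : Car H a) (he : 0 ≤ e) (h1 : LeOn H e 0) :
    Pos (a + e) P :=
  ⟨h.free, h.le.trans (le_add_of_nonneg_right he), fun m => le_trans
    ((ha.nsmul m).Sec_le hH (LeOn.nsmul (by simpa using (LeOn.rfl (a := a)).add h1) m)) (h.sec m)⟩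

/-- the ample model is a birational contraction -/
theorem Pos.prm (h : Pos a P) (hb : Big a) (hH : IsMod H) (ha : Car H a) (hV : Prm P V) :
    Prm H V := by
  by_contra hc
  obtain ⟨e, h1, h2, -, h3⟩ := hH.exists_exc_pos hV.dvs hc
  have h4 := (h.add_exc hH ha h1 h2.le).eqOn (hb.mono (le_add_of_nonneg_right h1)) V hV
  rw [h.eqOn hb V hV, val_add, left_eq_mul₀ (val_ne _ _)] at h4
  exact h3.ne' h4



end Crest.Agent.X262.Mod
end
namespace Crest.Agent.X262.Mod.Car
end Crest.Agent.X262.Mod.Car
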