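import Crest.Agent.X262.Mod79.QD

/-!
# Row 262, MOD (helper79): positive parts and models of `ℚ`-b-divisors

* `PosQ x p` : `p` is the semiample positive part of `x`;
* `md p` : a free multiple of the semiample class `p`; `mem_carQ_md`, `car_md`;
* `AmpQ H x` : ample on the `H`-model;
* `QFac H` : `ℚ`-factorial; `exists_single` : a prime divisor as the trace of a b-divisor.
-/

set_option autoImplicit false
set_option linter.unusedSectionVars false

noncomputable section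

namespace Crest.Agent.X262.Mod

open Crest.Agent.X277 Crest.Agent.X277.BD Crest.Agent.X277.Pst Filter

universe u

variable {k F : Type u} [Field k] [Field F] [Algebra k F] [CharZero k] [Algebra.EssFiniteType k F]
variable {H H' A a b c P : BD k F} {x y z p q : QD k F} {V : DV k F} {s t : ℚ}

/-! ### the model of a semiample class -/

theorem exists_md (p : QD k F) : ∃ a : BD k F, a.Free ∧
    (SaQ p → ∃ m : ℕ, 0 < m ∧ tr a = (m : ℚ) • p) := by
  by_cases h : SaQ p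
  · obtain ⟨m, a, h1, h2, h3⟩ := Lf.exists h
    exact ⟨a, h3, fun _ => ⟨m, h1, h2⟩⟩
  · exact ⟨0, Free.zero, fun h' => absurd h' h⟩

/-- a free multiple of a semiample class -/
def md (p : QD k F) : BD k F := (exists_md p).choose

theorem md_free (p : QD k F) : (md p).Free := (exists_md p).choose_spec.1

theorem SaQ.tr_md (h : SaQ p) : ∃ m : ℚ, 0 < m ∧ tr (md p) = m • p := by
  obtain ⟨m, h1, h2⟩ := (exists_md p).choose_spec.2 h
  exact ⟨m, Nat.cast_pos.2 h1, h2⟩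



theorem SaQ.tr_md_mem {S : Submodule ℚ (QD k F)} (h : SaQ p) : tr (md p) ∈ S ↔ p ∈ S := by
  obtain ⟨m, h1, h2⟩ := h.tr_md
  rw [h2, S.smul_mem_iff h1.ne']

theorem SaQ.car_md (h : SaQ p) (hH : H.Free) : Car H (md p) ↔ p ∈ CarQ H :=
  ⟨fun h1 => h.tr_md_mem.1 h1.carQ, fun h1 => car_of_carQ hH (md_free p) (h.tr_md_mem.2 h1)⟩



theorem carQ_iff (hH : H.Free) :
    x ∈ CarQ H ↔ ∃ c : ℚ, 0 < c ∧ SaQ (c • tr H + x) ∧ SaQ (c • tr H - x) := by
  constructor
  · intro h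
    obtain ⟨m, a, h1, h2, c, h3, h4⟩ := Lf.exists h
    have hm : (0 : ℚ) < m := Nat.cast_pos.2 h1
    rw [sub_eq_add_neg] at h4
    refine ⟨((c + 1 : ℕ) : ℚ) / m, by positivity, saQ_of h1 ?_ (free_mono hH h3 c.le_succ),
      saQ_of h1 ?_ (free_mono hH h4 c.le_succ)⟩
    · rw [map_add, tr_nsmul, h2, smul_add, smul_smul, mul_div_cancel₀ _ hm.ne']
    · rw [map_add, map_neg, tr_nsmul, h2, smul_sub, smul_smul, mul_div_cancel₀ _ hm.ne',
        sub_eq_add_neg]
  · rintro ⟨c, h0, h1, h2⟩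
    obtain ⟨n, hn⟩ := exists_nat_ge c
    have h3 : SaQ ((n : ℚ) • tr H + x) := by
      convert ((saQ_tr hH).smul (sub_nonneg.2 hn)).add h1 using 1
      module
    have h4 : SaQ ((n : ℚ) • tr H - x) := by
      convert ((saQ_tr hH).smul (sub_nonneg.2 hn)).add h2 using 1
      module
    filter_upwards [h3, h4] with m ⟨a, h5, h6⟩ ⟨b, h7, h8⟩
    have h9 : tr ((m * n) • H) = (m : ℚ) • (n : ℚ) • tr H := by
      rw [tr_nsmul, Nat.cast_mul, mul_smul]
    refine ⟨a - (m * n) • H, by rw [map_sub, h5, h9]; module, m * n, by simpa using h6, ?_⟩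
    have h10 : (m * n) • H - (a - (m * n) • H) = b := tr_injective (by
      rw [map_sub, map_sub, h5, h7, h9]
      module)
    rwa [h10]

/-- the criterion for being Cartier on the model of a semiample class -/
theorem SaQ.mem_carQ_iff (h : SaQ p) :
    z ∈ CarQ (md p) ↔ ∃ t : ℚ, 0 < t ∧ SaQ (p + t • z) ∧ SaQ (p - t • z) := by
  obtain ⟨m, h1, h2⟩ := h.tr_md
  rw [carQ_iff (md_free p), h2]
  constructor
  · rintro ⟨c, h3, h4, h5⟩
    have h6 : 0 < (c * m)⁻¹ := by positivity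
    refine ⟨_, h6, ?_, ?_⟩
    · convert h4.smul h6.le using 1
      rw [smul_add, smul_smul, smul_smul, mul_assoc, inv_mul_cancel₀ (by positivity), one_smul]
    · convert h5.smul h6.le using 1
      rw [smul_sub, smul_smul, smul_smul, mul_assoc, inv_mul_cancel₀ (by positivity), one_smul]
  · rintro ⟨t, h3, h4, h5⟩
    refine ⟨(t * m)⁻¹, by positivity, ?_, ?_⟩
    · convert h4.smul (inv_pos.2 h3).le using 1
      rw [smul_add, smul_smul, smul_smul, inv_mul_cancel₀ h3.ne', one_smul]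
      congr 2
      field_simp
    · convert h5.smul (inv_pos.2 h3).le using 1
      rw [smul_sub, smul_smul, smul_smul, inv_mul_cancel₀ h3.ne', one_smul]
      congr 2
      field_simp



/-! ### ample classes -/

/-- ample on the `H`-model -/
def AmpQ (H : BD k F) (x : QD k F) : Prop := x ∈ CarQ H ∧ ∃ t : ℚ, 0 < t ∧ SaQ (x - t • tr H)

theorem ampQ_self (hH : H.Free) : AmpQ H (tr H) :=
  ⟨(car_self hH).carQ, 1, one_pos, by simpa using SaQ.zero⟩

theorem AmpQ.sa (hH : H.Free) (h : AmpQ H x) : SaQ x := by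
  obtain ⟨-, t, h1, h2⟩ := h
  simpa using h2.add ((saQ_tr hH).smul h1.le)

theorem AmpQ.big (hH : IsMod H) (h : AmpQ H x) : BigQ x := by
  obtain ⟨-, t, h1, h2⟩ := h
  simpa using ((bigQ_tr.2 hH.big).smul h1).add_sa h2

theorem AmpQ.smul (h : AmpQ H x) (hs : 0 < s) : AmpQ H (s • x) := by
  obtain ⟨h0, t, h1, h2⟩ := h
  exact ⟨Submodule.smul_mem _ _ h0, s * t, mul_pos hs h1, by
    simpa only [smul_sub, smul_smul] using h2.smul hs.le⟩




/-- the model of an ample class is the given model -/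
theorem AmpQ.car (hH : H.Free) (h : AmpQ H x) : Car (md x) H := by
  obtain ⟨t, h1, h2⟩ := h.2
  exact car_of_carQ (md_free x) hH ((h.sa hH).mem_carQ_iff.2
    ⟨t, h1, (h.sa hH).add ((saQ_tr hH).smul h1.le), h2⟩)

theorem AmpQ.car' (hH : H.Free) (h : AmpQ H x) : Car H (md x) := ((h.sa hH).car_md hH).2 h.1

theorem AmpQ.prm (hH : H.Free) (h : AmpQ H x) {V : RZ k F} : Prm (md x) V ↔ Prm H V :=
  ⟨(h.car' hH).prm, (h.car hH).prm⟩

theorem AmpQ.carQ (hH : H.Free) (h : AmpQ H x) : CarQ (md x) = CarQ H :=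
  le_antisymm ((h.car' hH).carQ_le hH) ((h.car hH).carQ_le (md_free x))


/-! ### positive parts -/

/-- `p` is the semiample positive part of `x` -/
def PosQ (x p : QD k F) : Prop :=
  ∀ᶠ m : ℕ in dvT, ∃ a P, tr a = (m : ℚ) • x ∧ tr P = (m : ℚ) • p ∧ Pos a P

theorem posQ_of {m : ℕ} (hm : 0 < m) (h1 : tr a = (m : ℚ) • x) (h2 : tr P = (m : ℚ) • p)
    (h : Pos a P) : PosQ x p :=
  ⟨m, hm, fun l _ => ⟨l • a, l • P, by rw [tr_nsmul, h1, smul_smul, Nat.cast_mul],
    by rw [tr_nsmul, h2, smul_smul, Nat.cast_mul], h.nsmul l⟩⟩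

theorem PosQ.exists (h : PosQ x p) : ∃ (m : ℕ) (a P : BD k F), 0 < m ∧ tr a = (m : ℚ) • x ∧
    tr P = (m : ℚ) • p ∧ Pos a P := by
  obtain ⟨m, h1, a, P, h2⟩ := ev_exists h
  exact ⟨m, a, P, h1, h2⟩



theorem PosQ.le (h : PosQ x p) : p ≤ x := by
  obtain ⟨m, a, P, h1, h2, h3, h4⟩ := h.exists
  exact le_of_le_tr h1 h3 h2 h4.le

theorem PosQ.ge (h : PosQ x p) (hq : SaQ q) (h1 : q ≤ x) : q ≤ p := by
  obtain ⟨m, h2, ⟨a, P, h3, h4, h5⟩, b, h6, h7⟩ := ev_exists (Eventually.and h hq)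
  exact le_of_le_tr h2 h6 h4 (h5.ge_free h7 (le_of_tr h6 h3 h1))



theorem PosQ.smul (h : PosQ x p) (ht : 0 < t) : PosQ (t • x) (t • p) := by
  obtain ⟨m, a, P, h1, h2, h3, h4⟩ := h.exists
  have h5 : ∀ (c : BD k F) (w : QD k F), tr c = (m : ℚ) • w →
      tr (t.num.natAbs • c) = ((m * t.den : ℕ) : ℚ) • t • w := fun c w hc => by
    rw [tr_nsmul, hc, smul_smul, smul_smul, Nat.cast_mul, mul_assoc, Rat.den_mul_eq_num, mul_comm,
      Nat.cast_natAbs, abs_of_pos (Rat.num_pos.2 ht)]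
  exact posQ_of (mul_pos h1 t.den_pos) (h5 a x h2) (h5 P p h3) (h4.nsmul _)


theorem PosQ.of_le (h : PosQ x p) (hy : y ∈ BQ k F) (h1 : p ≤ y) (h2 : y ≤ x) : PosQ y p := by
  filter_upwards [h, hy] with m ⟨a, P, h3, h4, h5⟩ ⟨b, h6, _⟩
  exact ⟨b, P, h6, h4, h5.of_le (le_of_tr h4 h6 h1) (le_of_tr h6 h3 h2)⟩


theorem PosQ.big_iff (h : PosQ x p) : BigQ p ↔ BigQ x := by
  obtain ⟨m, a, P, h1, h2, h3, h4⟩ := h.exists
  rw [bigQ_iff h1 h2, bigQ_iff h1 h3, h4.big_iff]


theorem prm_md_iff {m : ℕ} (hm : 0 < m) (hP : P.Free) (h : tr P = (m : ℚ) • p) {V : RZ k F} :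
    Prm (md p) V ↔ Prm P V := by
  refine AmpQ.prm hP ?_
  have h1 := (ampQ_self hP).smul (inv_pos.2 (Nat.cast_pos.2 hm : (0 : ℚ) < m))
  rwa [h, smul_smul, inv_mul_cancel₀ (Nat.cast_pos.2 hm).ne', one_smul] at h1


/-- the ample model is a birational contraction -/
theorem PosQ.prm (h : PosQ x p) (hb : BigQ x) (hH : IsMod H) (hx : x ∈ CarQ H) {V : RZ k F}
    (hV : Prm (md p) V) : Prm H V := by
  obtain ⟨m, h1, ⟨a, P, h2, h3, h4⟩, b, h5, h6⟩ := ev_exists (Eventually.and h hx)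
  obtain rfl := tr_injective (h5.trans h2.symm)
  exact h4.prm ((bigQ_iff h1 h2).1 hb) hH h6 ((prm_md_iff h1 h4.free h3).1 hV)



/-! ### `ℚ`-factorial models -/

/-- every trace is `ℚ`-Cartier -/
def QFac (H : BD k F) : Prop := ∀ x ∈ BQ k F, ∃ y ∈ CarQ H, EqQ H y x


theorem od_sup (V : DV k F) (a b : BD k F) : od V (a ⊔ b) = max (od V a) (od V b) := ord_sup a b

theorem od_inf (V : DV k F) (a b : BD k F) : od V (a ⊓ b) = min (od V a) (od V b) := by
  rw [← neg_inj, ← map_neg, neg_inf, od_sup, map_neg, map_neg, max_neg_neg]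

/-- a prime divisor of a model is the trace of an effective b-divisor -/
theorem IsMod.exists_single (hH : IsMod H) (G : DV k F) : ∃ a : BD k F, 0 ≤ a ∧ od G a = 1 ∧
    ∀ V : DV k F, Prm H V.1 → V ≠ G → od V a = 0 := by
  classical
  obtain ⟨f, -, h1⟩ := exists_od_pr G
  have h2 := hH.fin_supp (tr_mem_BQ (pr k f ⊔ 0))
  have key : ∀ T : Finset (DV k F), ∃ a : BD k F, 0 ≤ a ∧ a ≤ pr k f ⊔ 0 ∧ od G a = 1 ∧
      ∀ V ∈ T, V ≠ G → od V a = 0 := by
    intro T
    induction T using Finset.induction_on with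
    | empty => exact ⟨_, le_sup_right, le_rfl, by rw [od_sup, h1, map_zero]; rfl, by simp⟩
    | insert W T _ ih =>
      obtain ⟨a, h3, h4, h5, h6⟩ := ih
      by_cases hW : W = G
      · refine ⟨a, h3, h4, h5, fun V hV hVG => ?_⟩
        rcases Finset.mem_insert.1 hV with rfl | hV
        exacts [absurd hW hVG, h6 V hV hVG]
      obtain ⟨g, h7, h8⟩ := Neg.exists_sep W.2 G.2 fun h => hW (Subtype.ext h)
      have h0 : g ≠ 0 := RZ.ne_zero_iff.1 (h7 ▸ one_ne_zero)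
      have h9 : od W (pr k g) = 0 := by
        rw [← Int.cast_eq_zero (α := ℚ), ← tr_apply, tr_eq_zero_at, val_pr h0, h7]
      have h10 : od G (pr k g) < 0 := by
        rw [← not_le, ← map_zero (od G), od_le_iff, val_pr h0, val_zero, not_le]
        exact h8
      have h11 : ∀ V : DV k F, 0 ≤ od V a := fun V => map_zero (od V) ▸ od_le_iff.2 (h3 V.1)
      refine ⟨a ⊓ (-pr k g ⊔ 0), le_inf h3 le_sup_right, inf_le_left.trans h4, ?_,
        fun V hV hVG => ?_⟩
      · rw [od_inf, od_sup, map_neg, map_zero, h5]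
        omega
      · rw [od_inf, od_sup, map_neg, map_zero]
        have := h11 V
        rcases Finset.mem_insert.1 hV with rfl | hV
        · rw [h9]
          omega
        · rw [h6 V hV hVG]
          omega
  obtain ⟨a, h3, h4, h5, h6⟩ := key h2.toFinset
  refine ⟨a, h3, h5, fun V hV hVG => ?_⟩
  by_cases h7 : tr (pr k f ⊔ 0) V = 0
  · have h8 := od_le_iff.2 (h4 V.1)
    have h9 := od_le_iff.2 (h3 V.1)
    rw [tr_apply, Int.cast_eq_zero] at h7
    rw [map_zero] at h9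
    omega
  · exact h6 V (h2.mem_toFinset.2 ⟨hV, h7⟩) hVG

/-- a prime divisor of a `ℚ`-factorial model -/
theorem QFac.exists_single (h : QFac H) (hH : IsMod H) {G : DV k F} (hG : Prm H G.1) :
    ∃ e ∈ CarQ H, 0 ≤ e ∧ e G = 1 ∧ ∀ V : DV k F, Prm H V.1 → V ≠ G → e V = 0 := by
  obtain ⟨a, h1, h2, h3⟩ := hH.exists_single G
  obtain ⟨e, h4, h5⟩ := h _ (tr_mem_BQ a)
  refine ⟨e, h4, carQ_le hH (zero_mem _) h4 fun V hV => ?_, ?_, fun V hV hVG => ?_⟩
  · rw [h5 V hV]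
    exact tr_nonneg.2 h1 V
  · rw [h5 G hG, tr_apply, h2, Int.cast_one]
  · rw [h5 V hV, tr_apply, h3 V hV hVG, Int.cast_zero]

/-- a small morphism onto a `ℚ`-factorial model is an isomorphism -/
theorem QFac.car (h : QFac H) (hH : H.Free) (hH' : IsMod H') (h1 : Car H' H)
    (hp : ∀ V, Prm H' V → Prm H V) : Car H H' := by
  obtain ⟨y, h2, h3⟩ := h _ (tr_mem_BQ H')
  have h4 := carQ_ext hH' (h1.carQ_le hH'.free h2) (car_self hH'.free).carQ
    fun V hV => h3 V (hp _ hV)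
  exact car_of_carQ hH hH'.free (h4 ▸ h2)

end Crest.Agent.X262.Mod
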