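import Crest.Agent.X262.Sark.Game

/-!
# Row 262, SARK (helper79): chambers are terminal `ℚ`-factorial models (`CellStmt`)
-/

set_option autoImplicit false
set_option linter.style.haveILetI false

open Filter
open scoped KaehlerDifferential

noncomputable section

namespace Crest.Agent.X262.Sark

open Crest.Agent.X277 Crest.Agent.X277.Lef Crest.Agent.X277.BD Crest.Agent.X277.Pst
open Crest.Agent.X277.BD.Br (On oP kP)
open Crest.Agent.X262.Mod

variable {K : Type} [Field K] [Algebra ℂ K] {n : ℕ} {b : Module.Basis (Fin n) K Ω[K⁄ℂ]}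

namespace Gm

variable {G : Gm b} {x y z w : G.κ → ℤ} {V : RZ ℂ K}

theorem essFT (G : Gm b) : Algebra.EssFiniteType ℂ K := by
  haveI := G.W.isFractionRing 0
  haveI : Algebra.EssFiniteType (G.W.A 0) K :=
    Algebra.EssFiniteType.of_isLocalization K (nonZeroDivisors (G.W.A 0))
  exact Algebra.EssFiniteType.comp ℂ (G.W.A 0) K


theorem S_add (hx : x ∈ G.S) (hy : y ∈ G.S) : x + y ∈ G.S := by
  obtain ⟨m, h1, h2⟩ := hx
  obtain ⟨m', h3, h4⟩ := hy
  refine ⟨m * m', mul_pos h1 h3, ?_⟩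
  convert (h2.nsmul m').add (h4.nsmul m) using 1
  rw [map_add, smul_add, smul_smul, smul_smul, mul_comm m' m]

theorem S_nsmul (hx : x ∈ G.S) (m : ℕ) : m • x ∈ G.S := by
  obtain ⟨r, h1, h2⟩ := hx
  exact ⟨r, h1, by rw [map_nsmul, smul_comm]; exact h2.nsmul m⟩

theorem S_div {m : ℕ} (hm : 0 < m) (hx : m • x ∈ G.S) : x ∈ G.S := by
  obtain ⟨r, h1, h2⟩ := hx
  exact ⟨r * m, mul_pos h1 hm, by rwa [mul_smul, ← map_nsmul]⟩

theorem cone (G : Gm b) : Cone G.l G.S :=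
  ⟨fun _ hx _ hy => S_add hx hy, fun _ _ hm hx => S_div hm hx, G.cl⟩

theorem Ef.add (hx : G.Ef x) (hy : G.Ef y) : G.Ef (x + y) := ⟨hx.1.add hy.1, S_add hx.2 hy.2⟩

theorem Ef.nsmul (hx : G.Ef x) {m : ℕ} (hm : 0 < m) : G.Ef (m • x) :=
  ⟨hx.1.nsmul hm, S_nsmul hx.2 m⟩

theorem Ef.pos (hx : G.Ef x) : Mod.Pos (G.c • G.D x) (G.P x) := G.pos x hx.1 hx.2

theorem Ef.free (hx : G.Ef x) : (G.P x).Free := hx.pos.free

theorem Ef.le (hx : G.Ef x) : G.P x ≤ G.c • G.D x := hx.pos.le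

theorem Ef.of_face (hy : G.Ef y) (hx : Ps x) (h : Face G.l x y) : G.Ef x :=
  ⟨hx, G.cl x y hx hy.1 hy.2 h⟩

theorem Ef.P_add (hx : G.Ef x) (hy : G.Ef y) (h : Conf G.l x y) : G.P (x + y) = G.P x + G.P y :=
  G.add x y hx.1 hy.1 hx.2 hy.2 h

theorem Ef.P_nsmul (hx : G.Ef x) {m : ℕ} (hm : 0 < m) : G.P (m • x) = m • G.P x :=
  (hx.nsmul hm).pos.unique (by rw [map_nsmul, smul_comm]; exact hx.pos.nsmul m)

theorem Ef.add_le (hx : G.Ef x) (hy : G.Ef y) : G.P x + G.P y ≤ G.P (x + y) :=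
  hx.pos.add_le hy.pos (by rw [← smul_add, ← map_add]; exact (hx.add hy).pos)

theorem Ef.big_iff (hx : G.Ef x) : Big (G.P x) ↔ Big (G.D x) :=
  hx.pos.big_iff.trans ⟨fun h => h.of_nsmul G.c_pos, fun h => h.nsmul G.c_pos⟩

theorem Ef.isMod (hx : G.Ef x) (hb : Big (G.D x)) : IsMod (G.P x) :=
  hx.pos.isMod (hb.nsmul G.c_pos)

theorem Ef.eqOn (hx : G.Ef x) (hb : Big (G.D x)) : EqOn (G.P x) (G.P x) (G.c • G.D x) :=
  haveI := G.essFT
  hx.pos.eqOn (hb.nsmul G.c_pos)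

theorem Ef.prm (hx : G.Ef x) (hb : Big (G.D x)) (hV : Prm (G.P x) V) : Prm (oP G.W) V :=
  haveI := G.essFT
  hx.pos.prm (hb.nsmul G.c_pos) G.mod ((G.car x).nsmul _) hV

theorem Ef.pr (hx : G.Ef x) (hb : Big (G.D x)) (hV : Prm (G.P x) V) : G.Pr x V :=
  ⟨hx.prm hb hV, hx.eqOn hb V hV⟩

/-- the classes span the Cartier divisors of `W` -/
theorem span_car {a : BD ℂ K} (ha : Car (oP G.W) a) :
    ∃ m : ℕ, 0 < m ∧ ∃ x f, m • a = G.D x + pr ℂ f := by
  haveI := G.essFT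
  obtain ⟨m, h1, x, f, h2⟩ := G.span a
  exact ⟨m, h1, x, f, (ha.nsmul m).eq G.mod ((G.car x).add (car_pr f)) h2⟩

/-- boundary points are the points which are not big -/
theorem bdy_iff : Bdy G.S x ↔ ¬ Big (G.D x) := by
  constructor
  · rintro ⟨z, hz⟩ hb
    obtain ⟨m, -, h⟩ := hb (-G.D z)
    exact hz m ⟨1, one_pos, by rwa [one_nsmul, map_add, map_nsmul, ← sub_neg_eq_add]⟩
  · intro h
    obtain ⟨m, h1, z, f, h2⟩ := span_car (G := G) (car_self G.mod.free)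
    refine ⟨-z, fun j ⟨r, h3, h4⟩ => h ?_⟩
    have h5 := ((G.mod.big.nsmul h1).nsmul h3).add_eff
      (h4.add ((free_neg_pr (k := ℂ) f).nsmul r).eff)
    have h6 : Big ((r * j) • G.D x) := by
      convert h5 using 1
      rw [h2, map_add, map_neg, map_nsmul, mul_smul]
      simp only [smul_add, smul_neg]
      abel
    rcases Nat.eq_zero_or_pos j with rfl | hj
    · obtain ⟨q, hq, h7⟩ := h6 (-G.D x)
      exact (Big.mono h6 (by simp) : Big (0 : BD ℂ K)).add_eff (b := G.D x) (by simpa using h7)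
        |>.mono (by simp)
    · exact h6.of_nsmul (mul_pos h3 hj)

/-- near a point of the orthant, in the directions of its flat -/
theorem Ef.ev_flat (hx : G.Ef x) (hz : ∀ i, G.l i x = 0 → G.l i z = 0) :
    ∀ᶠ m : ℕ in atTop, G.Ef (m • x + z) ∧ Face G.l (m • x + z) x ∧ Face G.l x (m • x + z) := by
  filter_upwards [hx.1.ev z, face_ev (l := G.l) x z] with m h1 h2
  have h3 : Face G.l (m • x + z) x := h2.symm_of fun i hi => by
    rw [map_add, map_nsmul, hi, hz i hi, smul_zero, add_zero]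
  exact ⟨hx.of_face h1 h3, h3, h2⟩

theorem Ch.flat (hy : G.Ch y) (z : G.κ → ℤ) (i : Fin G.N) (hi : G.l i y = 0) : G.l i z = 0 := by
  by_cases h0 : G.l i = 0
  · simp [h0]
  · exact absurd hi (hy.2 i h0)

theorem Ch.ev (hy : G.Ch y) (z : G.κ → ℤ) :
    ∀ᶠ m : ℕ in atTop, G.Ef (m • y + z) ∧ Face G.l (m • y + z) y ∧ Face G.l y (m • y + z) :=
  hy.1.ev_flat (hy.flat z)

theorem Ch.big (hy : G.Ch y) : Big (G.D y) := by
  by_contra h
  obtain ⟨z, hz⟩ := bdy_iff.2 h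
  obtain ⟨m, hm⟩ := (hy.ev z).exists
  exact hz m hm.1.2

/-- the positive part of a face is Cartier on the model of the cell -/
theorem car_face (hx : G.Ef x) (hw : G.Ef w) (h : Face G.l x w) : Car (G.P w) (G.P x) := by
  obtain ⟨m, ⟨h1, h2, -⟩, hm⟩ := ((hw.ev_flat (z := -x) fun i hi => by
    simp [h.zero hi]).and (eventually_gt_atTop 0)).exists
  refine car_of_free hw.free hx.free (n := m) ?_
  have h3 := h1.P_add hx (h2.conf₂ h)
  rw [neg_add_cancel_right, hw.P_nsmul hm] at h3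
  rw [h3, add_sub_cancel_right]
  exact h1.free

/-- primes outside the negative part of a cell are outside the negative part of its faces -/
theorem Pr.face (hx : G.Ef x) (hw : G.Ef w) (h : Face G.l x w) (hV : G.Pr w V) : G.Pr x V := by
  obtain ⟨m, ⟨h1, h2, -⟩, hm⟩ := ((hw.ev_flat (z := -x) fun i hi => by
    simp [h.zero hi]).and (eventually_gt_atTop 0)).exists
  have h3 := h1.P_add hx (h2.conf₂ h)
  rw [neg_add_cancel_right, hw.P_nsmul hm] at h3
  refine ⟨hV.1, (hx.le V).antisymm (le_of_mul_le_mul_left ?_ (val_pos (G.P (m • w + -x)) V))⟩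
  rw [← val_add (G.P _) (G.P x), ← h3, val_nsmul m, hV.2, ← val_nsmul]
  refine (mul_le_mul_left (h1.le V) _).trans_eq ?_
  rw [← val_add, ← smul_add, ← map_add, neg_add_cancel_right, map_nsmul, smul_comm]

/-- the set of primes outside the negative part is convex -/
theorem Pr.add (hx : G.Ef x) (hy : G.Ef y) (h1 : G.Pr x V) (h2 : G.Pr y V) : G.Pr (x + y) V := by
  refine ⟨h1.1, ((hx.add hy).le V).antisymm (le_trans (le_of_eq ?_) (hx.add_le hy V))⟩
  rw [map_add, smul_add, val_add, val_add, h1.2, h2.2]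


theorem Ch.exists_pi (hy : G.Ch y) : ∃ pi : (G.κ → ℤ) →+ BD ℂ K,
    ∀ z, ∀ᶠ m : ℕ in atTop, G.P (m • y + z) = m • G.P y + pi z := by
  have h1 : ∀ z, ∃ a : BD ℂ K, ∀ᶠ m : ℕ in atTop, G.P (m • y + z) = m • G.P y + a := by
    intro z
    obtain ⟨N, hN⟩ := eventually_atTop.1 (hy.ev z)
    refine ⟨G.P (N • y + z) - N • G.P y, eventually_atTop.2 ⟨N, fun m hm => ?_⟩⟩
    induction m, hm using Nat.le_induction with
    | base => abel
    | succ m hm ih =>
      rw [succ_nsmul, add_right_comm, (hN m hm).1.P_add hy.1 (hN m hm).2.1.conf, ih, succ_nsmul]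
      abel
  choose p hp using h1
  refine ⟨AddMonoidHom.mk' p fun z z' => ?_, hp⟩
  have h2 : Tendsto (fun m : ℕ => m + m) atTop atTop :=
    tendsto_atTop_mono (fun m => Nat.le_add_right m m) tendsto_id
  obtain ⟨m, ⟨⟨h3, h4⟩, h5, h6⟩, h7⟩ := ((((hp z).and (hp z')).and ((hy.ev z).and (hy.ev z'))).and
    (h2.eventually (hp (z + z')))).exists
  rw [add_nsmul, add_add_add_comm, h5.1.P_add h6.1 (h5.2.1.conf₂ h6.2.1), h3, h4, add_nsmul,
    add_add_add_comm, add_right_inj] at h7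
  exact h7.symm

section pi

variable {pi : (G.κ → ℤ) →+ BD ℂ K}
  (hp : ∀ z, ∀ᶠ m : ℕ in atTop, G.P (m • y + z) = m • G.P y + pi z) (hy : G.Ch y)
include hp hy

theorem pi_ev (z : G.κ → ℤ) : ∃ m : ℕ, 0 < m ∧ (m • G.P y + pi z).Free ∧
    m • G.P y + pi z ≤ m • G.c • G.D y + G.c • G.D z := by
  obtain ⟨m, ⟨h1, h2⟩, h3⟩ := (((hp z).and (hy.ev z)).and (eventually_gt_atTop 0)).exists
  refine ⟨m, h3, h1 ▸ h2.1.free, h1 ▸ h2.1.le.trans_eq ?_⟩
  rw [map_add, map_nsmul, smul_add, smul_comm]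

theorem pi_car (z : G.κ → ℤ) : Car (G.P y) (pi z) := by
  obtain ⟨m, -, h1, -⟩ := pi_ev hp hy z
  obtain ⟨m', -, h2, -⟩ := pi_ev hp hy (-z)
  exact car_of hy.1.free h1 (by rwa [map_neg, ← sub_eq_add_neg] at h2)

theorem pi_le (hV : G.Pr y V) (z : G.κ → ℤ) : (pi z).val V ≤ (G.c • G.D z).val V := by
  obtain ⟨m, -, -, h1⟩ := pi_ev hp hy z
  have h2 := h1 V
  rw [val_add, val_add, val_nsmul m, val_nsmul m, hV.2] at h2
  exact le_of_mul_le_mul_left h2 (pow_pos (val_pos _ _) m)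

theorem pi_eq (hV : G.Pr y V) (z : G.κ → ℤ) : (pi z).val V = (G.c • G.D z).val V := by
  refine (pi_le hp hy hV z).antisymm ?_
  have h1 := pi_le hp hy hV (-z)
  rwa [map_neg, map_neg, smul_neg, val_neg, val_neg, inv_le_inv₀ (val_pos _ _) (val_pos _ _)] at h1

theorem pi_eqOn (z : G.κ → ℤ) : EqOn (G.P y) (pi z) (G.c • G.D z) :=
  fun _ hV => pi_eq hp hy (hy.1.pr hy.big hV) z

theorem pi_face (hw : G.Ef w) (h : Face G.l w y) : pi w = G.P w := by
  obtain ⟨m, h1, h2⟩ := ((hp w).and (eventually_gt_atTop 0)).exists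
  rw [(hy.1.nsmul h2).P_add hw ((Face.rfl.nsmul_left m).conf₂ h), hy.1.P_nsmul h2] at h1
  exact (add_left_cancel h1).symm

theorem pi_ge (hw : G.Ef w) : G.P w ≤ pi w := by
  obtain ⟨m, h1, h2⟩ := ((hp w).and (eventually_gt_atTop 0)).exists
  have h3 := (hy.1.nsmul h2).add_le hw
  rwa [h1, hy.1.P_nsmul h2, add_le_add_iff_left] at h3

theorem pi_prm (hV : G.Pr y V) : Prm (G.P y) V := by
  haveI := G.essFT
  by_contra hc
  obtain ⟨x, f, h1, h2⟩ := G.prime V hV.1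
  have h3 : pi x + G.c • pr ℂ f = 0 :=
    ((pi_car hp hy x).add ((car_pr f).nsmul _)).eq (hy.1.isMod hy.big) Car.zero fun U hU => by
      rw [val_add, pi_eqOn hp hy x U hU, ← val_add, ← smul_add, val_nsmul,
        h2 U (hy.1.prm hy.big hU) (fun h => hc (h ▸ hU)), one_pow, val_zero]
  have h4 : (pi x + G.c • pr ℂ f).val V = (0 : BD ℂ K).val V := by rw [h3]
  rw [val_add, pi_eq hp hy hV, ← val_add, ← smul_add, val_nsmul, val_zero] at h4
  exact (one_lt_pow₀ h1 G.c_pos.ne').ne' h4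

/-- discrepancies increase -/
theorem pi_kk : ∃ t : ℕ, 0 < t ∧ t • (pi G.kk - G.c • pr ℂ G.fk) + G.mK • (G.c • G.D y - G.P y) ≤
    t • (G.c * G.mK) • kP G.W b := by
  haveI := G.essFT
  obtain ⟨t, q, h, h1, h2, h3, -, h5⟩ := G.adj y hy.1.1
  have h6 : Nef h := nef_of_semiample h2 (by simpa using h5.add G.mod.free)
  have h7 : G.D (G.mK • y - t • G.kk) = G.mK • h - t • pr ℂ G.fk := by
    rw [map_sub, map_nsmul, map_nsmul, h3, G.D_kk]
    module
  have h8 : Nef (G.c • G.D (G.mK • y - t • G.kk)) := by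
    rw [h7, sub_eq_add_neg, ← smul_neg]
    exact ((h6.nsmul _).add ((free_neg_pr _).nef.nsmul t)).nsmul _
  have h9 := (pi_car hp hy _).le_of_nef (hy.1.isMod hy.big) h8 (pi_eqOn hp hy _).ge
  rw [h7, map_sub, map_nsmul, map_nsmul, pi_face hp hy hy.1 Face.rfl, ← sub_nonneg] at h9
  refine ⟨t, h1, sub_nonneg.1 ?_⟩
  convert h9 using 1
  rw [h3, mul_smul]
  module

end pi

end Gm

/-- **CELL** -/
theorem cellStmt : CellStmt := by
  intro K _ _ n b G y hy
  haveI := G.essFT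
  obtain ⟨pi, hp⟩ := hy.exists_pi
  have hk : ∀ V, G.Pr y V → (pi G.kk - G.c • pr ℂ G.fk).val V =
      ((G.c * G.mK) • kP G.W b).val V := fun V hV => by
    rw [val_sub, Gm.pi_eq hp hy hV, ← val_sub, G.D_kk, smul_add, add_sub_cancel_right, mul_smul]
  obtain ⟨t, ht, h1⟩ := Gm.pi_kk hp hy
  have h2 : 0 ≤ G.mK • (G.c • G.D y - G.P y) := nsmul_nonneg (sub_nonneg.2 hy.1.le) _
  have hr : 0 < G.c * G.mK := mul_pos G.c_pos G.mK_pos
  refine ⟨⟨pi, ⟨G.P y, hy.1.isMod hy.big, G.c * G.mK, hr, pi G.kk - G.c • pr ℂ G.fk,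
    (Gm.pi_car hp hy _).sub ((car_pr _).nsmul _), fun W V h3 h4 => ?_, fun W V h3 h4 => ?_,
    fun a => ?_⟩, rfl, rfl, rfl, hp, Gm.pi_car hp hy, Gm.pi_eqOn hp hy,
    fun w => Gm.pi_face hp hy, fun w => Gm.pi_ge hp hy,
    fun V => ⟨hy.1.pr hy.big, Gm.pi_prm hp hy⟩⟩⟩
  · rw [hk V (hy.1.pr hy.big h4), val_nsmul, val_nsmul, G.can_eq W V h3 (hy.1.prm hy.big h4)]
  · by_cases h5 : Prm (oP G.W) V
    · have h6 : 1 < (G.mK • (G.c • G.D y - G.P y)).val V := by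
        rw [val_nsmul, val_sub]
        refine one_lt_pow₀ ((one_lt_div₀ (val_pos _ _)).2 ((hy.1.le V).lt_of_ne fun h => ?_))
          G.mK_pos.ne'
        exact h4 (Gm.pi_prm hp hy ⟨h5, h⟩)
      have h7 := (lt_mul_of_one_lt_right (val_pos _ V) h6).trans_le (h1 V)
      rw [val_nsmul t, val_nsmul t] at h7
      rw [val_nsmul, ← G.can_eq W V h3 h5, ← val_nsmul]
      exact lt_of_pow_lt_pow_left₀ t zero_le h7
    · refine (le_of_nsmul_le ht ((le_add_of_nonneg_right h2).trans h1) V).trans_lt ?_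
      rw [val_nsmul, val_nsmul]
      exact pow_lt_pow_left₀ (G.can_lt W V h3 h5) zero_le hr.ne'
  · obtain ⟨m, h3, x, f, h4⟩ := G.span a
    refine ⟨G.c * m, mul_pos G.c_pos h3, pi x + G.c • pr ℂ f,
      (Gm.pi_car hp hy x).add ((car_pr f).nsmul _), fun V hV => ?_⟩
    rw [val_add, Gm.pi_eqOn hp hy x V hV, ← val_add, ← smul_add, mul_smul, val_nsmul, val_nsmul G.c,
      h4 V (hy.1.prm hy.big hV)]

end Crest.Agent.X262.Sark
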