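import Crest.Agent.X262.Mod79.Cell
import Crest.Agent.X262.Sark46.Path
import Crest.Agent.X262.Sark.Arr
import Crest.Agent.X262.Sark27.Term
import Crest.Agent.X262.Geo.Dv
import Crest.Agent.X262.Sark.Game
import Crest.Agent.X277.AN.G1Conn
import Mathlib
import Crest.Agent.X277.BD.Defs
import Crest.Agent.X262.Cvx.Gr0
import Crest.Agent.X262.Cvx.Cone0
import Crest.Agent.X262.FG.Up0
import Crest.Agent.X277.Unf.Main

-- ▼ part X262/Sark/Basic
section

/-!
# Row 262, SARK (helper43): elementary facts on the geography `Gm` (complements to `Mod79/Cell`)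

* `exists_cham`, `Ef.big_sub`, `Ef.exists_ch`, `sameP_of_face`.
-/

set_option autoImplicit false

open Filter
open scoped KaehlerDifferential

noncomputable section

namespace Crest.Agent.X262.Sark

open Crest.Agent.X277 Crest.Agent.X277.Lef Crest.Agent.X277.BD Crest.Agent.X277.Pst
open Crest.Agent.X277.BD.Br (On oP kP)
open Crest.Agent.X262.Mod

/-- a vector which is in no hyperplane of the arrangement -/
theorem exists_cham43 {κ : Type} {N : ℕ} (l : Fin N → (κ → ℤ) →+ ℤ) : ∃ z, Cham l z := by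
  classical
  have key : ∀ s : Finset (Fin N), ∃ z, ∀ i ∈ s, l i ≠ 0 → l i z ≠ 0 := fun s => by
    induction s using Finset.induction_on with
    | empty => exact ⟨0, by simp⟩
    | insert i s _ ih =>
      obtain ⟨z, hz⟩ := ih
      by_cases h0 : l i = 0
      · exact ⟨z, fun j hj => (Finset.mem_insert.1 hj).elim (fun h h' => absurd (h ▸ h0) h') (hz j)⟩
      by_cases h1 : l i z = 0
      · obtain ⟨u, hu⟩ : ∃ u, l i u ≠ 0 := not_forall.1 fun h => h0 (AddMonoidHom.ext h)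
        obtain ⟨m, hm⟩ := (face_ev (l := l) z u).exists
        refine ⟨m • z + u, fun j hj h2 h3 => ?_⟩
        rcases Finset.mem_insert.1 hj with rfl | hj
        · exact hu (by rwa [map_add, map_nsmul, h1, nsmul_zero, zero_add] at h3)
        · exact hz j hj h2 (hm.zero h3)
      · exact ⟨z, fun j hj => (Finset.mem_insert.1 hj).elim (fun h _ => h ▸ h1) (hz j)⟩
  obtain ⟨z, hz⟩ := key Finset.univ
  exact ⟨z, fun i => hz i (Finset.mem_univ i)⟩

theorem Cham.ev43 {κ : Type} {N : ℕ} {l : Fin N → (κ → ℤ) →+ ℤ} {z : κ → ℤ} (hz : Cham l z)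
    (x : κ → ℤ) : ∀ᶠ m : ℕ in atTop, Cham l (m • x + z) := by
  filter_upwards [face_ev (l := l) x z] with m hm i hi h
  have h1 := hm.zero h
  exact hz i hi (by rwa [map_add, map_nsmul, h1, nsmul_zero, zero_add] at h)

variable {K : Type} [Field K] [Algebra ℂ K] {n : ℕ} {b : Module.Basis (Fin n) K Ω[K⁄ℂ]}

namespace G43

open Gm

variable {G : Gm b} {x y z w : G.κ → ℤ} {V : RZ ℂ K}

theorem big_add (h : Big (G.D x)) (hy : y ∈ G.S) : Big (G.D (x + y)) := by
  obtain ⟨m, h1, h2⟩ := hy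
  rw [map_add]
  exact h.add_psef (h2.psef.of_nsmul h1)

/-- a multiple of `x` is `t K +` an ample class -/
theorem big_sub (hx : G.Ef x) : ∀ᶠ m : ℕ in atTop, Big (G.D (m • x + -G.kk)) := by
  obtain ⟨t, q, h, ht, hq, h1, -, h3⟩ := G.adj x hx.1
  have h4 : Big h := big_of_eff_sub G.mod.big hq h3.eff
  have h5 : Big (G.D (G.mK • x + -(t • G.kk))) := by
    have : G.D (G.mK • x + -(t • G.kk)) = G.mK • h + t • -pr ℂ G.fk := by
      rw [map_add, map_neg, map_nsmul, map_nsmul, h1, G.D_kk]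
      module
    exact this ▸ (h4.nsmul G.mK_pos).add_eff ((free_neg_pr _).eff.nsmul t)
  filter_upwards [eventually_ge_atTop G.mK] with m hm
  obtain ⟨k, hk⟩ := Nat.exists_eq_add_of_le (hm.trans (Nat.le_mul_of_pos_left m ht))
  have h6 := big_add h5 (S_nsmul hx.2 k)
  rw [show G.mK • x + -(t • G.kk) + k • x = t • (m • x + -G.kk) by
    rw [smul_add, smul_smul, hk, add_nsmul, smul_neg]; abel, map_nsmul] at h6
  exact h6.of_nsmul ht

theorem exists_big (hx : G.Ef x) : ∃ w, G.Ef w ∧ Big (G.D w) ∧ Face G.l x w := by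
  obtain ⟨m, h1, h2, h3⟩ :=
    ((big_sub hx).and ((hx.1.ev (-G.kk)).and (face_ev (l := G.l) x (-G.kk)))).exists
  exact ⟨_, ⟨h2, h1.exists_eff⟩, h1, h3⟩

/-- every effective point is a face of an effective chamber -/
theorem exists_ch (hx : G.Ef x) : ∃ y, G.Ch y ∧ Face G.l x y := by
  obtain ⟨w, h1, h2, h3⟩ := exists_big hx
  obtain ⟨z, hz⟩ := exists_cham43 G.l
  obtain ⟨m₀, h4⟩ := h2.exists_sub (-G.D z)
  obtain ⟨m, h5, h6, h7, h8⟩ := ((eventually_ge_atTop m₀).and ((h1.1.ev z).and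
    ((hz.ev43 w).and (face_ev (l := G.l) w z)))).exists
  refine ⟨_, ⟨⟨h6, Big.exists_eff ?_⟩, h7⟩, h3.trans h8⟩
  rw [map_add, map_nsmul, ← sub_neg_eq_add]
  exact h4 m h5

theorem sameP_of_face (hx : G.Ef x) (hw : G.Ef w) (h : Face G.l x w) (h' : Face G.l w x) :
    SameP (G.P x) (G.P w) := fun _ => ⟨(car_face hx hw h).prm, (car_face hw hx h').prm⟩

end G43

end Crest.Agent.X262.Sark
end
end

-- ▼ part X262/Sark/Glue
section

/-!
# Row 262, SARK (helper43): the glue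

* `link_of` : adjacent facets give a Sarkisov link;
* `sark_of` : `PathStmt → CellStmt → FacetStmt → StarStmt → SetupStmt n → SarkStmt n`.
-/

set_option autoImplicit false

open Filter
open scoped KaehlerDifferential

noncomputable section

namespace Crest.Agent.X262.Sark

open Crest.Agent.X277 Crest.Agent.X277.Lef Crest.Agent.X277.BD Crest.Agent.X277.Pst
open Crest.Agent.X277.BD.Br (On oP kP)
open Crest.Agent.X262.Mod Gm G43

variable {K : Type} [Field K] [Algebra ℂ K] {n : ℕ} {b : Module.Basis (Fin n) K Ω[K⁄ℂ]}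
variable {G : Gm b} {x x₁ x₂ y y' y₁ y₂ : G.κ → ℤ}

theorem Fct.ef43 (h : Fct G.l G.S x) : G.Ef x := ⟨h.1, h.2.1⟩

theorem Rdg.ef43 (h : Rdg G.l G.S x) : G.Ef x := ⟨h.1, h.2.1⟩

/-- the chamber of a facet is an end of the link of a ridge -/
theorem end_of (hC : CellStmt) (hF : FacetStmt) (hS : StarStmt) (hx : Rdg G.l G.S x)
    (h1 : Fct G.l G.S x₁) (h2 : Face G.l x x₁) (hy : G.Ch y) (h3 : Face G.l x₁ y) :
    ∃ Z : TM b, (∀ V, Prm Z.H V ↔ G.Pr x V) ∧ Car Z.H (G.P x) ∧ End b (G.P x) Z (G.P y) := by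
  rcases hS K n b G x y hx hy (h2.trans h3) with h | ⟨Z, d, h4, h5, h6⟩
  · obtain ⟨C⟩ := hC K n b G y hy
    obtain ⟨-, Y, h4, h5⟩ := hF K n b G x₁ y C h1 hy h3
    have h6 : Y.H = G.P y := (congrArg TM.H h4).trans C.T_H
    refine ⟨C.T, C.T_H ▸ h, C.T_H ▸ car_face hx.ef43 hy.1 (h2.trans h3), Or.inr ⟨⟨Y, ?_, ?_⟩, ?_⟩⟩
    · rw [h6, C.T_H]
      exact SameP.rfl
    · exact h5 ▸ car_face hx.ef43 h1.ef43 h2
    · change SameP Y.H _
      rw [h6]
      exact SameP.rfl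
  · exact ⟨Z, h4, h5, Or.inl ⟨d, h6⟩⟩

/-- adjacent facets give a link -/
theorem link_of (hC : CellStmt) (hF : FacetStmt) (hS : StarStmt) (h : Adjc G.l G.S x₁ x₂)
    (hy₁ : G.Ch y₁) (h₁ : Face G.l x₁ y₁) (hy₂ : G.Ch y₂) (h₂ : Face G.l x₂ y₂) :
    Link b (G.P y₁) (G.P y₂) := by
  obtain ⟨f₁, f₂, x, hx, g₁, g₂⟩ := h
  obtain ⟨Z, a1, a2, a3⟩ := end_of hC hF hS hx f₁ g₁ hy₁ h₁
  obtain ⟨Z', b1, b2, b3⟩ := end_of hC hF hS hx f₂ g₂ hy₂ h₂
  exact ⟨G.P x, Z, Z', hx.ef43.free, fun V => (a1 V).trans (b1 V).symm, a2, b2, a3, b3⟩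

/-- the chamber of a facet is unique -/
theorem sameP_of_fct (hC : CellStmt) (hF : FacetStmt) (hx : Fct G.l G.S x) (hy : G.Ch y)
    (h : Face G.l x y) (hy' : G.Ch y') (h' : Face G.l x y') : SameP (G.P y) (G.P y') := by
  obtain ⟨C⟩ := hC K n b G y hy
  have h1 := (hF K n b G x y C hx hy h).1 y' hy' h'
  exact sameP_of_face hy.1 hy'.1 h1 (hy.2.face_symm h1)

theorem steps_of (hC : CellStmt) (hF : FacetStmt) (hS : StarStmt) (h₁ : Fct G.l G.S x₁)
    (h : Relation.ReflTransGen (Adjc G.l G.S) x₁ x₂) (hy₁ : G.Ch y₁) (f₁ : Face G.l x₁ y₁) :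
    ∀ y₂, G.Ch y₂ → Face G.l x₂ y₂ → Relation.ReflTransGen (Step b) (G.P y₁) (G.P y₂) := by
  induction h with
  | refl => exact fun y₂ hy₂ f₂ => .single (Or.inl (sameP_of_fct hC hF h₁ hy₁ f₁ hy₂ f₂))
  | tail _ h ih =>
    intro y₃ hy₃ f₃
    obtain ⟨y₂, hy₂, f₂⟩ := exists_ch h.1.ef43
    exact (ih y₂ hy₂ f₂).tail (Or.inr (link_of hC hF hS h hy₂ f₂ hy₃ f₃))

/-- a chamber in an open region -/
theorem exists_ch_mem {Q : Set (G.κ → ℤ)} (hQ : Opn Q) (hx : G.Ef x) (h : x ∈ Q) :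
    ∃ y ∈ Q, G.Ch y ∧ Face G.l x y := by
  obtain ⟨y, h1, h2⟩ := exists_ch hx
  obtain ⟨m, h3, h4⟩ := ((hQ.ev x h y).and (hx.1.ev y)).exists
  exact ⟨_, h3, ⟨h1.1.of_face h4 (h2.add_nsmul m), h1.2.of_face (h2.add_nsmul' m)⟩,
    h2.trans (h2.add_nsmul' m)⟩

/-- **the Sarkisov program from the packages** -/
theorem sark_of (hP : PathStmt) (hC : CellStmt) (hF : FacetStmt) (hS : StarStmt) {n : ℕ}
    (hG : SetupStmt n) : SarkStmt n := by
  intro K _ _ b P X h1 h2
  obtain ⟨G, Q₀, Q₁, u, w₀, w₁, a1, a2, a3, a4, a5, a6, a7, a8, a9, a10, a11, a12, a13, a14⟩ :=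
    hG K b P X h1 h2
  obtain ⟨x₀, b1, x₁, b2, b3, b4, b5⟩ := hP G.κ G.N G.l G.S Q₀ Q₁ u w₀ w₁ G.cone a1 a2 a3 a4 a5 a6
    (fun h => bdy_iff.1 h a7) (fun h => bdy_iff.1 h a8) a9 a10 a11 a12
  obtain ⟨y₀, c1, c2, c3⟩ := exists_ch_mem a1 b3.ef43 b1
  obtain ⟨y₁, d1, d2, d3⟩ := exists_ch_mem a2 b4.ef43 b2
  have e1 : Step b (oP P) (G.P y₀) := Or.inl (a13 y₀ c1 c2.1.1 c2.big).symm
  have e2 : Step b (G.P y₁) (oP X) := Or.inl (a14 y₁ d1 d2.1.1 d2.big)
  exact ((steps_of hC hF hS b3 b5 c2 c3 y₁ d2 d3).head e1).tail e2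

end Crest.Agent.X262.Sark
end
end

-- ▼ part X262/Sark46/Stmt
section

/-!
# Row 262, SARK (helper46): `Sark.PathStmt` and `Sark.ChainStmt`

* `cut` : a convex union of closed cells with an interior point is cut out by forms of the
  arrangement;
* `pathStmt`, `chainStmt`.
-/

set_option autoImplicit false

open Filter

namespace Crest.Agent.X262.Sark46

section Gen

variable {Λ ι : Type*} [AddCommGroup Λ] {l : ι → Λ →+ ℤ} {I : Set ι} {x y z w : Λ}

theorem Cd1.exists_form (h : Cd1 l x) :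
    ∃ φ : Λ →+ ℤ, φ x = 0 ∧ ∀ y, φ y = 0 → y ∈ Zs l x := by
  by_cases h1 : Cham l x
  · exact ⟨0, rfl, fun y _ => h1.mem_Zs y⟩
  obtain ⟨i, hi, h2⟩ : ∃ i, l i x = 0 ∧ l i ≠ 0 := by simpa [Cham] using h1
  obtain ⟨p, hp⟩ := DFunLike.ne_iff.1 h2
  refine ⟨l i, hi, fun y hy => ?_⟩
  obtain ⟨a, b, h3, h4⟩ := h p y
  have h5 : a = 0 := by simpa [hy, show l i p ≠ 0 from hp] using h4 i hi
  exact mem_Zs_of_zsmul (by simpa [h5] using h3) (by simpa [h5] using h4)

theorem Cd2.exists_form (h : Cd2 l x) :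
    ∃ φ ψ : Λ →+ ℤ, φ x = 0 ∧ ψ x = 0 ∧ ∀ y, φ y = 0 → ψ y = 0 → y ∈ Zs l x := by
  by_cases h1 : Cham l x
  · exact ⟨0, 0, rfl, rfl, fun y _ _ => h1.mem_Zs y⟩
  obtain ⟨i, hi, h2⟩ : ∃ i, l i x = 0 ∧ l i ≠ 0 := by simpa [Cham] using h1
  obtain ⟨p, hp⟩ := DFunLike.ne_iff.1 h2
  by_cases h3 : ∀ y, l i y = 0 → y ∈ Zs l x
  · exact ⟨l i, 0, hi, rfl, fun y hy _ => h3 y hy⟩
  obtain ⟨q, h4, j, hj, h5⟩ : ∃ q, l i q = 0 ∧ ∃ j, l j x = 0 ∧ l j q ≠ 0 := by
    simpa [mem_Zs] using h3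
  refine ⟨l i, l j, hi, hj, fun y hy hy' => ?_⟩
  obtain ⟨a, b, c, h6, h7⟩ := h p q y
  have h8 : a = 0 := by simpa [hy, h4, show l i p ≠ 0 from hp] using h7 i hi
  have h9 : b = 0 := by simpa [hy', h8, h5] using h7 j hj
  exact mem_Zs_of_zsmul (by simpa [h8, h9] using h6) (by simpa [h8, h9] using h7)

theorem cd1_comb (hx : Cham l x) (hw : Cham (fun p : ι × ι => (l p.2).comp (ent l x p.1)) w)
    {a b : ℤ} (h0 : a ≠ 0 ∨ b ≠ 0) : Cd1 l (a • x + b • w) := by
  by_cases h : ∃ i, l i (a • x + b • w) = 0 ∧ l i x ≠ 0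
  · obtain ⟨i, hi, h1⟩ := h
    refine cd1_of (l i) fun y hy k hk => ?_
    have h2 := DFunLike.congr_fun (hw (i, k) (by
      simp only [map_add, map_zsmul, smul_eq_mul] at hi hk
      simp only [AddMonoidHom.comp_apply, l_ent]
      rcases h0 with h0 | h0 <;> refine mul_left_cancel₀ h0 ?_
      · linear_combination l i w * hk - l k w * hi
      · linear_combination l k x * hi - l i x * hk)) y
    simpa [l_ent, hy, h1] using h2
  · refine cd1_of 0 fun y _ k hk => ?_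
    rw [hx k (by
      by_contra h1
      exact h ⟨k, hk, h1⟩)]
    rfl

/-- the chamber across a wall -/
theorem Cd1.face_across (h : Cd1 l z) {s : Λ} (h1 : Face l z y) (h2 : Face l z s) {k : ι}
    (hk : l k z = 0) (h3 : 0 < l k y * l k s) : Face l y s := fun i => by
  by_cases hi : l i z = 0
  swap
  · have h4 := (h1 i).resolve_left hi
    have h5 := (h2 i).resolve_left hi
    have h6 : 0 < (l i y * l i s) * (l i z * l i z) := by nlinarith [mul_pos h4 h5]
    exact .inr ((mul_pos_iff_of_pos_right (mul_self_pos.2 hi)).1 h6)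
  obtain ⟨a, b, h4, h5⟩ := h y s
  have h6 := h5 k hk
  have h7 := h5 i hi
  rw [map_add, map_zsmul, map_zsmul, smul_eq_mul, smul_eq_mul] at h6 h7
  have h8 : l k y ≠ 0 := fun h => by simp [h] at h3
  have h9 : l k s ≠ 0 := fun h => by simp [h] at h3
  have hb : b ≠ 0 := fun h => by simp_all
  have h10 : l k y * l i s = l k s * l i y :=
    mul_left_cancel₀ hb (by linear_combination l k y * h7 - l i y * h6)
  refine (eq_or_ne _ 0).imp_right fun h11 => ?_
  have h12 : 0 < (l i y * l i s) * (l k y * l k y) := by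
    refine (mul_pos h3 (mul_self_pos.2 h11)).trans_eq ?_
    linear_combination -(l k y * l i y) * h10
  exact (mul_pos_iff_of_pos_right (mul_self_pos.2 h8)).1 h12

/-- **a convex union of closed cells is cut out by forms of the arrangement** -/
theorem cut [Finite ι] {O S : Λ → Prop} (hO : ∀ x y, O x → O y → O (x + y))
    (oO : ∀ x, O x → Opn O x) (hS : ∀ x y, S x → S y → S (x + y))
    (cl : ∀ x y, O x → O y → S y → Face l x y → S x) (neg : ∀ i, ∃ j, l j = -l i)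
    (hI : ∀ i, i ∈ I ↔ ∀ s, O s → S s → 0 ≤ l i s) (Ow : O w) (hw : Opn S w) (hw' : Inn l I w)
    (Ox : O x) (hx : In l I x) : S x := by
  obtain ⟨y, Oy, cy, hy, hf⟩ := hx.exists_cham hw' (oO x Ox)
  refine cl x y Ox Oy ?_ hf
  obtain ⟨v, ⟨⟨Ov, Sv⟩, hv⟩, cv⟩ := (((oO w Ow).and hw).and hw'.opn).exists_cham
    (Sum.elim l fun p : ι × ι => (l p.2).comp (ent l y p.1))
  let T : Λ → Prop := fun p => O p ∧ Inn l I p ∧
    ∃ a b : ℤ, 0 ≤ a ∧ 0 ≤ b ∧ 0 < a + b ∧ p = a • y + b • v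
  have hT : ∀ p q, T p → T q → T (p + q) := by
    rintro _ _ ⟨h1, h2, a, b, h3, h4, h5, rfl⟩ ⟨h6, h7, a', b', h8, h9, h10, rfl⟩
    exact ⟨hO _ _ h1 h6, h2.add_in h7.in, a + a', b + b', by omega, by omega, by omega, by module⟩
  have hc : ∀ p, T p → Cd1 l p := by
    rintro _ ⟨-, -, a, b, h3, h4, h5, rfl⟩
    exact cd1_comb cy (fun p => cv (.inr p)) (by omega)
  have h1 := walls hT hc (y := v) (y' := y) ⟨Ov, hv, 0, 1, by simp⟩
    ⟨Oy, cy.inn hy, 1, 0, by simp⟩ (fun i => cv (.inl i)) cy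
  clear hf hy Oy
  generalize y = y' at h1 ⊢
  induction h1 with
  | refl => exact Sv
  | @tail p q _ h2 ih =>
    obtain ⟨Tp, Tq, cp, cq, i, j, hi, hj, h3, h4⟩ := h2
    have Tz := hT _ _ (add_closed hT Tp hi) (add_closed hT Tq hj)
    have Sz := cl _ _ Tz.1 Tp.1 ih h3
    generalize i • p + j • q = z at h3 h4 Tz Sz
    by_cases h5 : Conf l q p
    · exact cl _ _ Tq.1 Tp.1 ih (cp.face h5)
    obtain ⟨k, hk⟩ : ∃ k, l k q < 0 ∧ 0 < l k p := by
      obtain ⟨k, hk⟩ := not_forall.1 h5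
      rcases mul_neg_iff.1 (not_le.1 hk) with h | h
      · obtain ⟨k', h6⟩ := neg k
        exact ⟨k', by simpa [h6] using h⟩
      · exact ⟨k, h⟩
    have h6 : l k z = 0 := by
      by_contra h6
      nlinarith [(h3 k).resolve_left h6, (h4 k).resolve_left h6, hk.1, hk.2]
    obtain ⟨s, Os, Ss, h7⟩ : ∃ s, O s ∧ S s ∧ l k s < 0 := by
      by_contra h7
      rcases Tz.2.1 k ((hI k).2 fun s h8 h9 => not_lt.1 fun h10 => h7 ⟨s, h8, h9, h10⟩) with h | h
      · simp [h] at hk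
      · exact h.ne' h6
    obtain ⟨m, h8, h9⟩ := ((eventually_gt_atTop 0).and (opn_face l z s)).exists
    exact cl _ _ Tq.1 (hO _ _ (add_closed hO Tz.1 h8) Os) (hS _ _ (add_closed hS Sz h8) Ss)
      ((hc z Tz).face_across h4 h9 h6 (by simpa [h6] using mul_pos_of_neg_of_neg hk.1 h7))

end Gen

variable {κ : Type} {N : ℕ} {l : Fin N → (κ → ℤ) →+ ℤ} {x y : κ → ℤ}

theorem cham_iff : Sark.Cham l y ↔ Cham l y := forall_congr' fun _ => not_imp_not

/-- the forms and their negatives -/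
def dbl (l : Fin N → (κ → ℤ) →+ ℤ) : Fin N ⊕ Fin N → (κ → ℤ) →+ ℤ := Sum.elim l fun i => -l i

theorem cd_one (h : Cd1 (dbl l) x) : Sark.Cd l x 1 := by
  obtain ⟨φ, h1, h2⟩ := h.exists_form
  exact ⟨![φ], by simpa using h1, fun i hi y hy => h2 y (hy 0) (.inl i) hi⟩

theorem cd_two (h : Cd2 (dbl l) x) : Sark.Cd l x 2 := by
  obtain ⟨φ, ψ, h1, h2, h3⟩ := h.exists_form
  exact ⟨![φ, ψ], by simpa using ⟨h1, h2⟩, fun i hi y hy => h3 y (hy 0) (hy 1) (.inl i) hi⟩

theorem pathStmt : Sark.PathStmt := by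
  intro κ _ N l S Q₀ Q₁ u w₀ w₁ hS hQ₀ hQ₁ Pu P₀ P₁ hu h₀ h₁ u₀ u₁ m₀ m₁
  let I : Set (Fin N ⊕ Fin N) := {i | ∀ s, Sark.Ps s → s ∈ S → 0 ≤ dbl l i s}
  have aS : ∀ x y, x ∈ S → y ∈ S → x + y ∈ S := fun x y hx hy => hS.add x hx y hy
  have up : ∀ {w y : κ → ℤ} {n : ℕ}, w ∈ S → n • w + y ∈ S →
      ∀ᶠ m : ℕ in atTop, m • w + y ∈ S := fun {w y n} hw h => by
    filter_upwards [eventually_gt_atTop n] with m hm
    have h1 := aS _ _ (add_closed aS hw (Nat.sub_pos_of_lt hm)) h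
    rwa [← add_assoc, ← add_nsmul, Nat.sub_add_cancel hm.le] at h1
  have opn : ∀ {w : κ → ℤ}, ¬ Sark.Bdy S w → Opn (· ∈ S) w := fun {w} hw y => by
    simp only [Sark.Bdy, not_exists, not_forall, not_not] at hw
    obtain ⟨n, h1⟩ := hw w
    obtain ⟨m, h2⟩ := hw y
    exact up (hS.div (n + 1) w n.succ_pos (succ_nsmul w n ▸ h1)) h2
  have neg : ∀ {i}, dbl l i ≠ 0 → ∃ y, dbl l i y < 0 := fun {i} hi => by
    obtain ⟨y, hy⟩ := DFunLike.ne_iff.1 hi
    rcases lt_or_gt_of_ne hy with h | h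
    · exact ⟨y, h⟩
    · exact ⟨-y, by simpa using h⟩
  have inn : ∀ {w : κ → ℤ}, Sark.Ps w → ¬ Sark.Bdy S w → Inn (dbl l) I w := fun {w} Pw hw i hi => by
    refine (eq_or_ne _ 0).imp_right fun h => not_le.1 fun h1 => ?_
    obtain ⟨y, hy⟩ := neg h
    obtain ⟨m, h2, h3⟩ := ((Pw.ev y).and (opn hw y)).exists
    have h4 := hi _ h2 h3
    rw [map_add, map_nsmul, nsmul_eq_mul] at h4
    nlinarith [mul_nonneg (Nat.cast_nonneg (α := ℤ) m) (neg_nonneg.2 h1)]
  have mem : ∀ {x : κ → ℤ}, Sark.Ps x → In (dbl l) I x → x ∈ S := fun {x} Px hx =>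
    cut (O := Sark.Ps) (fun _ _ => Sark.Ps.add) (fun _ h => h.ev) aS
      (fun x y h1 h2 h3 h4 => hS.cl x y h1 h2 h3 fun i => h4 (.inl i))
      (fun i => i.rec (fun i => ⟨.inr i, rfl⟩) fun i => ⟨.inl i, (neg_neg _).symm⟩)
      (fun _ => Iff.rfl) P₀ (opn h₀) (inn P₀ h₀) Px hx
  have bd : ∀ {x : κ → ℤ}, Sark.Ps x → In (dbl l) I x → ¬ Inn (dbl l) I x → Sark.Bdy S x :=
    fun {x} Px hx h => by
      obtain ⟨i, hi, h1, h2⟩ : ∃ i ∈ I, dbl l i ≠ 0 ∧ dbl l i x ≤ 0 := by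
        simpa only [Inn, not_forall, not_or, not_lt, exists_prop] using h
      obtain ⟨y, hy⟩ := neg h1
      refine ⟨y, fun n hn => ?_⟩
      obtain ⟨m, h3, h4⟩ := ((Px.ev y).and (up (mem Px hx) hn)).exists
      have h5 := hi _ h3 h4
      rw [map_add, map_nsmul, le_antisymm h2 (hx i hi), smul_zero, zero_add] at h5
      exact hy.not_ge h5
  have fct : ∀ {f y : κ → ℤ}, Fct (dbl l) I Sark.Ps f y → Sark.Fct l S f := fun h =>
    ⟨h.pos, mem h.pos (h.mem.of_face h.face), bd h.pos (h.mem.of_face h.face) h.bd, cd_one h.cd⟩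
  have adj : ∀ {x f y f' y' : κ → ℤ}, Sark.Ps x → ¬ Inn (dbl l) I x → Cd2 (dbl l) x →
      Face (dbl l) x f → Face (dbl l) x f' → Fct (dbl l) I Sark.Ps f y →
      Fct (dbl l) I Sark.Ps f' y' → Sark.Adjc l S f f' := fun h1 h2 h3 h4 h5 h6 h7 =>
    have h8 := (h6.mem.of_face h6.face).of_face h4
    ⟨fct h6, fct h7, _, ⟨h1, mem h1 h8, bd h1 h8 h2, cd_two h3⟩, fun i => h4 (.inl i),
      fun i => h5 (.inl i)⟩
  obtain ⟨f, f', h1, h2, ⟨y, h3⟩, ⟨y', h4⟩, h5⟩ := path (l := dbl l) (I := I) (O := Sark.Ps)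
    (R := (· ∈ Q₀)) (R' := (· ∈ Q₁)) (fun _ _ => Sark.Ps.add)
    (fun x y hx hy => hQ₀.add x hx y hy) (fun x y hx hy => hQ₁.add x hx y hy) (fun _ h => h.ev)
    hQ₀.ev hQ₁.ev (fun h => by
      obtain ⟨m, h1, h2⟩ := ((eventually_gt_atTop 0).and (hu 0)).exists
      exact h2 (by simpa using add_closed aS (mem Pu h) h1))
    (inn P₀ h₀) (inn P₁ h₁) Pu P₀ P₁ u₀ u₁ m₀ m₁
  refine ⟨f, h1, f', h2, fct h3, fct h4, ?_⟩
  clear h2 h4
  induction h5 with
  | refl => exact .refl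
  | tail _ h ih =>
    obtain ⟨x, _, _, h6, h7, h8, h9, h10, h11, h12⟩ := h
    exact ih.tail (adj h6 h7 h8 h9 h10 h11 h12)

theorem chainStmt : Sark.ChainStmt := by
  intro κ N l p₀ p₁ h₀
  suffices h : ∀ y₀, Sark.Seg p₀ p₁ y₀ → Sark.Cham l y₀ → ∃ y, Sark.Seg p₀ p₁ y ∧ Sark.Cham l y ∧
      Sark.Face l p₁ y ∧ Relation.ReflTransGen (Sark.Nxt l p₀ p₁) y₀ y from
    h p₀ ⟨1, 0, one_pos, by simp⟩ h₀
  intro y₀ s₀ c₀
  induction hn : {i | l i y₀ * l i p₁ < 0}.ncard using Nat.strong_induction_on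
    generalizing y₀ with
  | _ n ih =>
  have c₀' := cham_iff.1 c₀
  by_cases hc : Conf l y₀ p₁
  · exact ⟨y₀, s₀, c₀, c₀'.face hc.symm, .refl⟩
  have seg : ∀ {a : ℕ} (b : ℕ), 0 < a → Sark.Seg p₀ p₁ (a • y₀ + b • p₁) := fun {a} b ha => by
    obtain ⟨c, d, h1, rfl⟩ := s₀
    exact ⟨a * c, a * d + b, mul_pos ha h1, by module⟩
  obtain ⟨i, -, h1, h2, h3⟩ := exists_ent (l := fun j => l j y₀ • l j) (I := Set.univ) (u := p₁)
    (w := y₀) (fun h => hc fun j => h j trivial) fun j _ =>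
      (eq_or_ne (l j y₀) 0).imp (fun h => by simp [h]) mul_self_pos.2
  obtain ⟨a, ha⟩ := Int.eq_ofNat_of_zero_le (neg_pos.2 h1).le
  obtain ⟨b, hb⟩ := Int.eq_ofNat_of_zero_le h2.le
  have a0 : 0 < a := Nat.cast_pos.1 (ha ▸ neg_pos.2 h1)
  have b0 : 0 < b := Nat.cast_pos.1 (hb ▸ h2)
  have e : ent (fun j => l j y₀ • l j) p₁ i y₀ = a • y₀ + b • p₁ := by
    rw [← natCast_zsmul, ← natCast_zsmul, ← ha, ← hb, neg_smul, neg_add_eq_sub]
    rfl
  have h4 : l i (a • y₀ + b • p₁) = 0 := by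
    have h5 := l_ent (l := fun j => l j y₀ • l j) p₁ y₀ i i
    rw [e, mul_comm, sub_self] at h5
    exact (mul_eq_zero.1 h5).resolve_left fun h => by simp [h] at h2
  rw [e] at h3
  have h5 : Face l (a • y₀ + b • p₁) y₀ := c₀'.face (Conf.symm fun j => h3 j trivial)
  obtain ⟨m, m0, h6⟩ := ((eventually_gt_atTop 0).and (opn_face l (a • y₀ + b • p₁) p₁)).exists
  have e1 : m • (a • y₀ + b • p₁) + p₁ = (m * a) • y₀ + (m * b + 1) • p₁ := by module
  have h7 : Cham l (m • (a • y₀ + b • p₁) + p₁) := fun j hj => by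
    have h8 := (h6 j).resolve_right (by simp only [hj, mul_zero, lt_self_iff_false, not_false_iff])
    rw [map_add, map_nsmul, h8, smul_zero, zero_add] at hj
    rw [map_add, map_nsmul, map_nsmul, hj, smul_zero, add_zero] at h8
    exact c₀' j (by simpa [a0.ne'] using h8)
  suffices h : {j | l j (m • (a • y₀ + b • p₁) + p₁) * l j p₁ < 0} ⊂ {j | l j y₀ * l j p₁ < 0} by
    obtain ⟨y, h8, h9, h10, h11⟩ := ih _ (hn ▸ Set.ncard_lt_ncard h) _
      (e1 ▸ seg _ (mul_pos m0 a0)) (cham_iff.2 h7) rfl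
    exact ⟨y, h8, h9, h10, .head ⟨s₀, e1 ▸ seg _ (mul_pos m0 a0), c₀, cham_iff.2 h7,
      ⟨_, seg b a0, h5, h6, m * b + 1, a, b, Nat.succ_pos _, a0, b0, by module⟩,
      1, m * a, m * b + 1, one_pos, by module⟩ h11⟩
  refine ⟨fun j hj => ?_, fun h => ?_⟩
  · rw [Set.mem_ofPred_eq, e1, map_add, map_nsmul, map_nsmul, nsmul_eq_mul, nsmul_eq_mul] at hj
    rw [Set.mem_ofPred_eq]
    by_contra h8
    nlinarith [mul_nonneg (Nat.cast_nonneg (α := ℤ) (m * a)) (not_lt.1 h8),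
      mul_nonneg (Nat.cast_nonneg (α := ℤ) (m * b + 1)) (mul_self_nonneg (l j p₁))]
  · have h8 := h (show l i y₀ * l i p₁ < 0 from h1)
    rw [Set.mem_ofPred_eq, map_add, map_nsmul, h4, smul_zero, zero_add] at h8
    exact absurd h8 (not_lt.2 (mul_self_nonneg _))

end Crest.Agent.X262.Sark46
end

-- ▼ part X262/Sark46/End
section

/-!
# Row 262, SARK (helper46): the end regions of the geography

`W` is a smooth model which dominates the Fano model `P`.

* `QB P W` : the classes `a` with `a - π a` positive on every exceptional prime (`π = tr P`);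
* `Ng P a` : `-π a` is big; `QB.sameP` : on `QB` the ample model is `P`;
* `gen` : the classes of `W` are generated by `oP P` and the exceptional primes.
-/

set_option autoImplicit false

open Filter
open scoped KaehlerDifferential

noncomputable section

namespace Crest.Agent.X262.Sark46

open Crest.Agent.X277 Crest.Agent.X277.Lef Crest.Agent.X277.BD Crest.Agent.X277.Pst
open Crest.Agent.X277.BD.Br (On oP kP)
open Crest.Agent.X262.Mod Crest.Agent.X262.Geo Crest.Agent.X262.Sark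

variable {K : Type} [Field K] [Algebra ℂ K] {n : ℕ} {P W : PModel ℂ K} {a a' y p : BD ℂ K}

/-- `a - π a` is positive on the exceptional primes -/
def QB (P W : PModel ℂ K) (a : BD ℂ K) : Prop :=
  ∀ V, Prm (oP W) V → ¬ Prm (oP P) V → od V (tr P a) < od V a

/-- `-π a` is big -/
def Ng (P : PModel ℂ K) (a : BD ℂ K) : Prop := Big (-tr P a)

theorem QB.add (h : QB P W a) (h' : QB P W a') : QB P W (a + a') := fun V h1 h2 => by
  rw [map_add, map_add, map_add]
  exact add_lt_add (h V h1 h2) (h' V h1 h2)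

theorem QB.add_on (h : QB P W a) (hy : y ∈ On P) : QB P W (a + y) := fun V h1 h2 => by
  rw [map_add, map_add, map_add, tr_eq hy]
  exact add_lt_add_left (h V h1 h2) _

theorem fin_exc (P W : PModel ℂ K) : {V : RZ ℂ K | Prm (oP W) V ∧ ¬ Prm (oP P) V}.Finite :=
  have := eft P
  (isMod_oP P).fin_exc (isMod_oP W)

theorem QB.ev (h : QB P W a) (y : BD ℂ K) : ∀ᶠ m : ℕ in atTop, QB P W (m • a + y) := by
  have h1 := (eventually_all_finite (fin_exc P W)).2 fun V hV =>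
    Sark.ev_pos (sub_pos.2 (h V hV.1 hV.2)) (od V y - od V (tr P y))
  refine h1.mono fun m hm V h2 h3 => ?_
  have h4 := hm V ⟨h2, h3⟩
  simp only [map_add, map_nsmul, nsmul_eq_mul]
  linarith

theorem Ng.ev (h : Ng P a) (y : BD ℂ K) : ∀ᶠ m : ℕ in atTop, Ng P (m • a + y) := by
  obtain ⟨r, hr⟩ := Big.exists_sub h (tr P y)
  filter_upwards [eventually_ge_atTop r] with m hm
  have h1 := hr m hm
  rwa [smul_neg, ← neg_add', ← map_nsmul, ← map_add] at h1

theorem not_big_zero (b : Module.Basis (Fin (n + 1)) K Ω[K⁄ℂ]) (P : PModel ℂ K) :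
    ¬ Big (0 : BD ℂ K) := fun h => by
  have := eft P
  have h1 := Nef.zero.big_iff.1 h
  have h2 : dim ℂ K = n + 1 := (Module.finrank_eq_card_basis b).trans (Fintype.card_fin _)
  rw [h2, List.replicate_succ, bnum_zero] at h1
  exact h1.false

theorem Ng.not_eff (h0 : ¬ Big (0 : BD ℂ K)) (h : Ng P a) {m : ℕ} (hm : 0 < m) : ¬ Eff (m • a) :=
  fun ⟨g, h1, h2⟩ => h0 (by
    simpa using (Big.nsmul h hm).add_eff (b := tr P (m • a)) ⟨g, Sec_le_tr _ h1, h2⟩)

variable {b : Module.Basis (Fin n) K Ω[K⁄ℂ]}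

theorem tr_kP (hW : oP P ∈ On W) : tr P (kP W b) = kP P b :=
  have := eft P
  (eq_tr (Br.kP_mem b) fun _ hV =>
    (od_eq_iff hV.dvs).2 (Sark27.kP_eq_val b hV (prm_up hW hV))).symm

theorem qb_kP (hW : oP P ∈ On W) : QB P W (kP W b) := fun _ h1 h2 => by
  have := eft P
  rw [tr_kP hW]
  exact (od_lt_iff h1.dvs).2 (Sark27.kP_lt_val b h1 h2)

theorem ng_kP (hP : F1 P b) (hW : oP P ∈ On W) : Ng P (kP W b) := by
  obtain ⟨r, hr, h⟩ := hP.1
  have h1 := (h.neg.add (Lin.rfl (a := r • oP P))).big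
    (by simpa using (isMod_oP P).big.nsmul hr)
  rw [Ng, tr_kP hW]
  simpa using h1

theorem big_tr (h : Big a) : Big (tr P a) := fun y => by
  obtain ⟨c, h1, -, h2⟩ := exists_free_ge y
  obtain ⟨m, hm, g, h3, h4⟩ := h c
  refine ⟨m, hm, g, Sec_mono ?_ (Sec_le_tr (P := P) _ h3), h4⟩
  rw [map_sub, map_nsmul]
  exact sub_le_sub_left (h2.trans (le_tr h1.nef)) _

/-- on `QB` the ample model of a big class is `P` -/
theorem QB.sameP (h0 : ¬ Big (0 : BD ℂ K)) (hP : F1 P b) (hW : oP P ∈ On W) (ha : a ∈ On W)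
    (h : QB P W a) (hb : Big a) {c : ℕ} (hc : 0 < c) (hp : Pos (c • a) p) : SameP p (oP P) := by
  have := eft P
  obtain ⟨m, hm, t, f, -, h1⟩ := hP.2 _ (tr_mem (P := P) a)
  have ht : 0 < t := not_le.1 fun ht => h0 (by
    obtain ⟨s, hs⟩ := Int.eq_ofNat_of_zero_le (neg_nonneg.2 ht)
    have h2 := (((big_tr (P := P) hb).nsmul hm).add_eff (Br.free_oP (P := P).nsmul s).eff).add_eff
      (free_neg_pr f).eff
    rwa [h1, ← natCast_zsmul, ← hs, neg_smul, add_neg_cancel_comm, add_neg_cancel] at h2)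
  lift t to ℕ using ht.le
  rw [natCast_zsmul] at h1
  have h2 : tr P a ≤ a := le_On (Br.On_le_iff.2 hW (tr_mem a)) ha fun V hV => by
    by_cases h2 : Prm (oP P) V
    · exact (od_tr h2 a).le
    · exact (h V hV h2).le
  have h3 : Pos (m • a) (m • tr P a) := pos_of_eqOn (isMod_oP P)
    (h1 ▸ (Br.free_oP.nsmul t).add (free_pr f)) ((car_of_On (tr_mem a)).nsmul m)
    (nsmul_le_nsmul_right h2 m) (LeOn.nsmul (leOn_iff.2 fun V hV => (od_tr hV a).ge) m)
  have h4 : m • p = c • (t • oP P + pr ℂ f) :=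
    h1 ▸ (hp.nsmul m).unique (smul_comm c m a ▸ h3.nsmul c)
  obtain ⟨s, hs⟩ := Nat.exists_eq_add_of_le (mul_pos hc (Nat.cast_pos.1 ht))
  have h5 : (m • p - oP P).Free := by
    convert (Br.free_oP (P := P).nsmul s).add ((free_pr f).nsmul c) using 1
    rw [h4, smul_add, smul_smul, hs]
    module
  have h6 : Car (oP P) (m • p) :=
    h4 ▸ (((car_self Br.free_oP).nsmul t).add (car_pr f)).nsmul c
  intro V
  rw [← prm_nsmul hp.free hm]
  exact ⟨h6.prm, (car_of_free (hp.free.nsmul m) Br.free_oP (n := 1) (by rwa [one_nsmul])).prm⟩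

/-- the classes of `W` are generated by `oP P` and the exceptional primes -/
theorem gen (hP : F1 P b) (hW : oP P ∈ On W) : ∃ (ι : Type) (_ : Fintype ι) (g : ι → BD ℂ K),
    (∀ i, g i ∈ On W) ∧ ∀ a ∈ On W, ∃ m : ℕ, 0 < m ∧ ∃ (c : ι → ℤ) (f : K),
      m • a = ∑ i, c i • g i + pr ℂ f := by
  refine ⟨Option (fin_exc P W).toFinset, inferInstance,
    fun i => i.elim (oP P) fun V => dv W V, fun i => i.rec hW fun V => dv_mem V.1, fun a ha => ?_⟩
  obtain ⟨m, hm, t, f, -, h1⟩ := hP.2 _ (tr_mem (P := P) a)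
  refine ⟨m, hm, fun i => i.elim t fun V => od V.1 (m • (a - tr P a)), f, ?_⟩
  have h2 := eq_sum_dv (nsmul_mem (sub_mem ha (Br.On_le_iff.2 hW (tr_mem a))) m)
    (T := (fin_exc P W).toFinset) fun V hV h => (fin_exc P W).mem_toFinset.2 ⟨hV, fun h2 => h (by
      rw [map_nsmul, map_sub, od_tr h2, sub_self, smul_zero])⟩
  rw [Fintype.sum_option]
  simp only [Option.elim]
  rw [Finset.sum_coe_sort _ fun V => od V (m • (a - tr P a)) • dv W V, ← h2, add_right_comm, ← h1,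
    ← smul_add, add_sub_cancel]

end Crest.Agent.X262.Sark46
end
end

-- ▼ part X262/Sark27/Can
section

/-!
# Row 262, SARK (helper27): `CanStmt`
-/

set_option autoImplicit false

namespace Crest.Agent.X262.Sark27

open Crest.Agent.X277

theorem canStmt : Sark.CanStmt := fun K _ _ _ b W _ _ hV =>
  haveI : Algebra.EssFiniteType ℂ K := AN.G1.essFiniteType W
  ⟨fun h => kP_eq_val b h hV, fun h => kP_lt_val b hV h⟩

end Crest.Agent.X262.Sark27
end

-- ▼ part X262/FG/Fan76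
section

/-!
# X262/FG/Fan76 (helper76): the chamber decomposition of a finite set of degrees

`d : J → ι → ℤ` is a pointed finite family of degrees.  For every basis `B ⊆ J` of its span the
coordinates with respect to `B` are an integral matrix `T B` (up to a common denominator `N`).  The
rows of these matrices cut the cone spanned by the `d j` into chambers; on each chamber every linear
programme `max {∑ a j • c j | a ≥ 0, ∑ a j • d j = x}` (weights `c` in any ordered group) is solved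
by one basis (`Dat.lp_int`).
-/

set_option autoImplicit false
set_option linter.unusedSectionVars false

noncomputable section

open Finset Filter Topology

namespace Crest.Agent.X262.FG.Fan

variable {J ι : Type*} [Fintype J] [Fintype ι]

/-- the degree of a vector of exponents -/
def deg (K : Type*) [CommRing K] (d : J → ι → ℤ) : (J → K) →ₗ[K] (ι → K) where
  toFun a i := ∑ j, a j * d j i
  map_add' a b := by ext i; simp [add_mul, sum_add_distrib]
  map_smul' t a := by ext i; simp [mul_sum, mul_assoc]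

variable {d : J → ι → ℤ}

theorem deg_apply {K : Type*} [CommRing K] (a : J → K) (i : ι) :
    deg K d a i = ∑ j, a j * d j i := rfl

theorem deg_single {K : Type*} [CommRing K] [DecidableEq J] (j : J) (t : K) (i : ι) :
    deg K d (Pi.single j t) i = t * d j i := by
  rw [deg_apply, sum_eq_single j] <;> simp +contextual

theorem cast_deg {K : Type*} [CommRing K] (a : J → ℤ) (i : ι) :
    ((deg ℤ d a i : ℤ) : K) = deg K d (fun j => a j) i := by
  simp [deg_apply]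

/-- no non-trivial non-negative relation -/
def Pt (d : J → ι → ℤ) : Prop := ∀ a : J → ℚ, 0 ≤ a → deg ℚ d a = 0 → a = 0

theorem pt_of_nonneg (h : ∀ j i, 0 ≤ d j i) (h0 : ∀ j, d j ≠ 0) : Pt d := by
  intro a ha h1
  ext j
  obtain ⟨i, hi⟩ := Function.ne_iff.1 (h0 j)
  have h2 : ∑ j, a j * d j i = 0 := congrFun h1 i
  rw [sum_eq_zero_iff_of_nonneg fun j _ => mul_nonneg (ha j) (Int.cast_nonneg (h j i))] at h2
  have := h2 j (mem_univ j)
  rcases mul_eq_zero.1 this with h3 | h3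
  · exact h3
  · exact absurd (by exact_mod_cast h3) hi

/-- the `d j`, `j ∈ B`, are independent -/
def Ind (d : J → ι → ℤ) (B : Set J) : Prop :=
  ∀ a : J → ℚ, (∀ j ∉ B, a j = 0) → deg ℚ d a = 0 → a = 0

/-- the `d j`, `j ∈ B`, are a basis of the span -/
def IsB (d : J → ι → ℤ) (B : Set J) : Prop :=
  Ind d B ∧ ∀ j, ∃ a : J → ℚ, (∀ j ∉ B, a j = 0) ∧ deg ℚ d a = fun i => (d j i : ℚ)

/-- the bases -/
def Bs (d : J → ι → ℤ) : Type _ := {B : Set J // IsB d B}

instance : Finite (Bs d) := by unfold Bs; infer_instance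

instance : Fintype (Bs d) := Fintype.ofFinite _

theorem Ind.exists_isB {A : Set J} (h : Ind d A) : ∃ B : Bs d, A ⊆ B.1 := by
  classical
  obtain ⟨B, hAB, hB⟩ := Finite.exists_le_maximal (p := Ind d) h
  refine ⟨⟨B, hB.1, fun j => ?_⟩, hAB⟩
  by_cases hj : j ∈ B
  · refine ⟨Pi.single j 1, fun b hb => Pi.single_eq_of_ne (fun e : b = j => hb (e ▸ hj)) _, ?_⟩
    ext i
    rw [deg_single, one_mul]
  · have hn : ¬ Ind d (insert j B) := fun hi =>
      hj (hB.2 hi (Set.subset_insert _ _) (Set.mem_insert _ _))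
    simp only [Ind, not_forall] at hn
    obtain ⟨a, ha, ha0, hne⟩ := hn
    have haj : a j ≠ 0 := fun e => hne (hB.1 a (fun b hb => by
      by_cases hbj : b = j
      · rw [hbj, e]
      · exact ha b (by simp [hbj, hb])) ha0)
    refine ⟨Pi.single j 1 - (a j)⁻¹ • a, fun b hb => ?_, ?_⟩
    · by_cases hbj : b = j
      · subst hbj
        simp [haj]
      · simp [hbj, ha b (by simp [hbj, hb])]
    · ext i
      rw [map_sub, map_smul, ha0, smul_zero, sub_zero, deg_single, one_mul]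

theorem IsB.exists_supp {B : Set J} (h : IsB d B) (b : J → ℚ) :
    ∃ a : J → ℚ, (∀ j ∉ B, a j = 0) ∧ deg ℚ d a = deg ℚ d b := by
  choose s h1 h2 using h.2
  refine ⟨∑ j, b j • s j, fun j hj => by simp [Finset.sum_apply, h1 _ j hj], ?_⟩
  ext i
  simp [h2, Finset.sum_apply, deg_apply (a := b)]

theorem exists_den {κ : Type*} [Finite κ] (q : κ → ℚ) :
    ∃ D : ℕ, 0 < D ∧ ∀ k, ∃ n : ℤ, (n : ℚ) = D * q k := by
  classical
  have := Fintype.ofFinite κ
  refine ⟨∏ k, (q k).den, prod_pos fun k _ => (q k).den_pos, fun k => ?_⟩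
  refine ⟨(∏ l ∈ univ.erase k, (q l).den : ℕ) * (q k).num, ?_⟩
  rw [← prod_erase_mul _ _ (mem_univ k)]
  push_cast
  rw [mul_assoc, Rat.den_mul_eq_num]

/-- coordinates in all bases, with a common denominator -/
structure Dat (d : J → ι → ℤ) where
  N : ℕ
  N_pos : 0 < N
  T : Bs d → J → ι → ℤ
  Q : ι → ι → ℤ
  supp : ∀ B, ∀ j ∉ B.1, T B j = 0
  deg_T : ∀ B i i', ∑ j, T B j i * d j i' = Q i i'
  fix : ∀ j i', ∑ i, d j i * Q i i' = N * d j i'

theorem nonempty_dat (d : J → ι → ℤ) : Nonempty (Dat d) := by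
  classical
  obtain ⟨π, hπ⟩ := (LinearMap.range (deg ℚ d)).subtype.exists_leftInverse_of_injective
    (Submodule.ker_subtype _)
  have h1 : ∀ (B : Bs d) (i : ι), ∃ a : J → ℚ, (∀ j ∉ B.1, a j = 0) ∧
      deg ℚ d a = π (Pi.single i 1) := by
    intro B i
    obtain ⟨b, hb⟩ := (π (Pi.single i 1)).2
    rw [← hb]
    exact B.2.exists_supp b
  choose s hs1 hs2 using h1
  obtain ⟨N, hN, hT⟩ := exists_den (κ := Bs d × J × ι ⊕ ι × ι)
    (Sum.elim (fun p => s p.1 p.2.2 p.2.1) fun p => (π (Pi.single p.1 1) : ι → ℚ) p.2)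
  choose n hn using hT
  have hN' : (N : ℚ) ≠ 0 := by positivity
  refine ⟨⟨N, hN, fun B j i => n (.inl (B, j, i)), fun i i' => n (.inr (i, i')), ?_, ?_, ?_⟩⟩
  · intro B j hj
    ext i
    have := hn (.inl (B, j, i))
    simp only [Sum.elim_inl, hs1 B i j hj, mul_zero] at this
    exact_mod_cast this
  · intro B i i'
    have : ((∑ j, n (.inl (B, j, i)) * d j i' : ℤ) : ℚ) = n (.inr (i, i')) := by
      push_cast
      simp only [hn, Sum.elim_inl, Sum.elim_inr, ← hs2 B i, deg_apply, mul_sum, mul_assoc]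
    exact_mod_cast this
  · intro j i'
    have hm : (fun i => (d j i : ℚ)) ∈ LinearMap.range (deg ℚ d) :=
      ⟨Pi.single j 1, by ext i; rw [deg_single, one_mul]⟩
    have h2 : π (fun i => (d j i : ℚ)) = ⟨_, hm⟩ := LinearMap.congr_fun hπ ⟨_, hm⟩
    have h3 : (fun i => (d j i : ℚ)) = ∑ i, (d j i : ℚ) • (Pi.single i 1 : ι → ℚ) := by
      ext i
      simp [Finset.sum_apply, Pi.single_apply]
    have h4 : ∑ i, (d j i : ℚ) * (π (Pi.single i 1) : ι → ℚ) i' = d j i' := by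
      have := congrArg (fun w : LinearMap.range (deg ℚ d) => (w : ι → ℚ) i') h2
      simp only at this
      rw [← this]
      conv_rhs => rw [h3]
      simp [Finset.sum_apply]
    have : ((∑ i, d j i * n (.inr (i, i')) : ℤ) : ℚ) = (N * d j i' : ℤ) := by
      push_cast
      simp only [hn, Sum.elim_inr]
      rw [← h4, mul_sum]
      exact sum_congr rfl fun i _ => by ring
    exact_mod_cast this

namespace Dat

variable (D : Dat d)

/-- `N` times the coordinates of (the projection to the span of) `x` in the basis `B` -/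
def crd (K : Type*) [CommRing K] (B : Bs d) : (ι → K) →ₗ[K] (J → K) where
  toFun x j := ∑ i, D.T B j i * x i
  map_add' a b := by ext i; simp [mul_add, sum_add_distrib]
  map_smul' t a := by ext i; simp [mul_sum, mul_left_comm]

variable {K : Type*} [CommRing K]

theorem crd_apply (B : Bs d) (x : ι → K) (j : J) : D.crd K B x j = ∑ i, D.T B j i * x i := rfl

theorem cast_crd (B : Bs d) (x : ι → ℤ) (j : J) :
    ((D.crd ℤ B x j : ℤ) : K) = D.crd K B (fun i => x i) j := by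
  simp [crd_apply]

theorem crd_off (B : Bs d) (x : ι → K) {j : J} (hj : j ∉ B.1) : D.crd K B x j = 0 := by
  simp [crd_apply, D.supp B j hj]

theorem deg_crd' (B : Bs d) (x : ι → K) (i' : ι) :
    deg K d (D.crd K B x) i' = ∑ i, x i * D.Q i i' := by
  simp only [deg_apply, crd_apply, sum_mul, ← D.deg_T B]
  rw [sum_comm]
  refine sum_congr rfl fun i _ => ?_
  push_cast
  rw [mul_sum]
  exact sum_congr rfl fun j _ => by ring

theorem sum_deg_Q (a : J → K) (i' : ι) : ∑ i, deg K d a i * D.Q i i' = D.N * deg K d a i' := by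
  simp only [deg_apply, sum_mul, mul_sum]
  rw [sum_comm]
  refine sum_congr rfl fun j _ => ?_
  have := congrArg (fun z : ℤ => a j * (z : K)) (D.fix j i')
  simp only [Int.cast_sum, Int.cast_mul, Int.cast_natCast, mul_sum] at this
  simp only [mul_assoc]
  rw [this]
  ring

theorem deg_crd (B : Bs d) (a : J → K) :
    deg K d (D.crd K B (deg K d a)) = (D.N : K) • deg K d a := by
  ext i'
  rw [deg_crd', sum_deg_Q]
  rfl

theorem crd_deg_rat (B : Bs d) {a : J → ℚ} (ha : ∀ j ∉ B.1, a j = 0) :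
    D.crd ℚ B (deg ℚ d a) = (D.N : ℚ) • a := by
  rw [← sub_eq_zero]
  refine B.2.1 _ (fun j hj => by simp [D.crd_off B _ hj, ha j hj]) ?_
  rw [map_sub, map_smul, deg_crd, sub_self]

theorem T_d [DecidableEq J] (B : Bs d) {b : J} (hb : b ∈ B.1) (j : J) :
    ∑ i, D.T B j i * d b i = if j = b then (D.N : ℤ) else 0 := by
  have h := congrFun (D.crd_deg_rat B (a := Pi.single b 1)
    fun j hj => Pi.single_eq_of_ne (fun e : j = b => hj (e ▸ hb)) _) j
  simp only [crd_apply, deg_single, one_mul, Pi.smul_apply, Pi.single_apply, smul_eq_mul] at h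
  have : ((∑ i, D.T B j i * d b i : ℤ) : ℚ) = (if j = b then (D.N : ℤ) else 0 : ℤ) := by
    push_cast
    rw [h]
    split_ifs <;> simp
  exact_mod_cast this

theorem crd_deg (B : Bs d) {a : J → K} (ha : ∀ j ∉ B.1, a j = 0) :
    D.crd K B (deg K d a) = (D.N : K) • a := by
  classical
  ext j
  simp only [crd_apply, deg_apply, mul_sum, Pi.smul_apply, smul_eq_mul]
  rw [sum_comm, sum_eq_single j]
  · by_cases hj : j ∈ B.1
    · have := congrArg (fun z : ℤ => a j * (z : K)) (D.T_d B hj j)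
      simp only [Int.cast_sum, Int.cast_mul, if_true, Int.cast_natCast, mul_sum] at this
      rw [mul_comm, ← this]
      exact sum_congr rfl fun i _ => by ring
    · simp [ha j hj]
  · intro b _ hbj
    by_cases hb : b ∈ B.1
    · have := congrArg (fun z : ℤ => a b * (z : K)) (D.T_d B hb j)
      simp only [Int.cast_sum, Int.cast_mul, if_neg hbj.symm, Int.cast_zero, mul_zero,
        mul_sum] at this
      rw [← this]
      exact sum_congr rfl fun i _ => by ring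
    · simp [ha b hb]
  · simp

/-- the rows of `Q` are `N` times the projections of the unit vectors -/
theorem Q_eq (B : Bs d) (i : ι) :
    (fun i' => (D.Q i i' : K)) = deg K d fun j => (D.T B j i : K) := by
  ext i'
  simp [deg_apply, ← D.deg_T B]

/-! ### the linear programme -/

section LP

variable {G : Type*} [AddCommGroup G] [LinearOrder G] [IsOrderedAddMonoid G] [Module ℚ G]
  [PosSMulStrictMono ℚ G] [SMulPosMono ℚ G]

/-- the objective function -/
def val (c : J → G) : (J → ℚ) →ₗ[ℚ] G := Fintype.linearCombination ℚ c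

theorem val_apply (c : J → G) (a : J → ℚ) : val c a = ∑ j, a j • c j := rfl

/-- reduction to basic solutions -/
theorem red (hd : Pt d) (c : J → G) (a : J → ℚ) (ha : 0 ≤ a) :
    ∃ B : Bs d, 0 ≤ D.crd ℚ B (deg ℚ d a) ∧
      (D.N : ℚ) • val c a ≤ val c (D.crd ℚ B (deg ℚ d a)) := by
  classical
  induction hn : (univ.filter fun j => a j ≠ 0).card using Nat.strong_induction_on generalizing a with
  | _ n ih =>
  by_cases hi : Ind d {j | a j ≠ 0}
  · obtain ⟨B, hB⟩ := hi.exists_isB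
    have h1 := D.crd_deg B (K := ℚ) (a := a) fun j hj => by
      by_contra h
      exact hj (hB h)
    refine ⟨B, ?_, ?_⟩
    · rw [h1]
      exact smul_nonneg (Nat.cast_nonneg _) ha
    · rw [h1, map_smul]
  · simp only [Ind, not_forall] at hi
    obtain ⟨μ, hμ, hμ0, hne, hv⟩ : ∃ μ : J → ℚ, (∀ j, a j = 0 → μ j = 0) ∧ deg ℚ d μ = 0 ∧
        μ ≠ 0 ∧ 0 ≤ val c μ := by
      obtain ⟨μ, h1, h2, h3⟩ := hi
      rcases le_total 0 (val c μ) with h | h
      · exact ⟨μ, fun j hj => h1 j (by simpa using hj), h2, h3, h⟩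
      · exact ⟨-μ, fun j hj => by simpa using h1 j (by simpa using hj), by simp [h2],
          neg_ne_zero.2 h3, by simpa using h⟩
    have hneg : (univ.filter fun j => μ j < 0).Nonempty := by
      by_contra h
      refine hne (hd μ (fun j => ?_) hμ0)
      by_contra hj
      exact h ⟨j, mem_filter.2 ⟨mem_univ _, not_le.1 hj⟩⟩
    obtain ⟨j0, hj0, hmin⟩ := exists_min_image _ (fun j => a j / -μ j) hneg
    have hj0' : μ j0 < 0 := (mem_filter.1 hj0).2
    set t := a j0 / -μ j0 with ht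
    have ht0 : 0 ≤ t := div_nonneg (ha j0) (by linarith)
    have h1 : 0 ≤ a + t • μ := by
      intro j
      simp only [Pi.zero_apply, Pi.add_apply, Pi.smul_apply, smul_eq_mul]
      by_cases hj : μ j < 0
      · have := hmin j (mem_filter.2 ⟨mem_univ _, hj⟩)
        rw [le_div_iff₀ (by linarith)] at this
        linarith
      · have := mul_nonneg ht0 (not_lt.1 hj)
        have := ha j
        simp only [Pi.zero_apply] at this
        linarith
    have h2 : deg ℚ d (a + t • μ) = deg ℚ d a := by rw [map_add, map_smul, hμ0, smul_zero, add_zero]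
    have h3 : (univ.filter fun j => (a + t • μ) j ≠ 0).card < n := by
      rw [← hn]
      refine card_lt_card ⟨fun j hj => ?_, fun h => ?_⟩
      · simp only [mem_filter, mem_univ, true_and] at hj ⊢
        intro e
        exact hj (by simp [e, hμ j e])
      · have h4 : a j0 ≠ 0 := fun e => hj0'.ne (hμ j0 e)
        have h5 := (mem_filter.1 (h (mem_filter.2 ⟨mem_univ j0, h4⟩))).2
        refine h5 ?_
        simp only [Pi.add_apply, Pi.smul_apply, smul_eq_mul, ht]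
        have := hj0'.ne
        field_simp
        ring
    obtain ⟨B, hB1, hB2⟩ := ih _ h3 _ h1 rfl
    rw [h2] at hB1 hB2
    refine ⟨B, hB1, le_trans ?_ hB2⟩
    refine smul_le_smul_of_nonneg_left ?_ (Nat.cast_nonneg _)
    rw [map_add, map_smul]
    exact le_add_of_nonneg_right (smul_nonneg ht0 hv)

theorem exists_small (u w : J → ℚ) (h : ∀ j, 0 < u j ∨ 0 ≤ u j ∧ 0 ≤ w j) :
    ∃ t : ℚ, 0 < t ∧ 0 ≤ u + t • w := by
  have h1 : ∀ᶠ t : ℚ in 𝓝[>] 0, ∀ j, 0 ≤ u j + t * w j := by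
    rw [eventually_all]
    intro j
    rcases h j with h | h
    · have : Tendsto (fun t : ℚ => u j + t * w j) (𝓝 0) (𝓝 (u j + 0 * w j)) :=
        Continuous.tendsto (by fun_prop) _
      rw [zero_mul, add_zero] at this
      exact ((this.eventually (lt_mem_nhds h)).filter_mono nhdsWithin_le_nhds).mono
        fun _ h => h.le
    · filter_upwards [self_mem_nhdsWithin] with t ht
      exact add_nonneg h.1 (mul_nonneg (le_of_lt ht) h.2)
  obtain ⟨t, h2, h3⟩ := (h1.and self_mem_nhdsWithin).exists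
  exact ⟨t, h3, h2⟩

/-- at a generic point the optimal basis is dual feasible -/
theorem lp (hd : Pt d) (c : J → G) {a : J → ℚ} (ha : 0 ≤ a)
    (hg : ∀ B : Bs d, ∀ b ∈ B.1, D.crd ℚ B (deg ℚ d a) b ≠ 0) :
    ∃ B : Bs d, (∀ b ∈ B.1, 0 < D.crd ℚ B (deg ℚ d a) b) ∧
      ∀ j, (D.N : ℚ) • c j ≤ val c (D.crd ℚ B fun i => d j i) := by
  classical
  have hN : (0 : ℚ) < D.N := by exact_mod_cast D.N_pos
  obtain ⟨B0, hB0, -⟩ := D.red hd c a ha
  obtain ⟨B, hB, hmax⟩ := exists_max_image (univ.filter fun B => 0 ≤ D.crd ℚ B (deg ℚ d a))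
    (fun B => val c (D.crd ℚ B (deg ℚ d a))) ⟨B0, mem_filter.2 ⟨mem_univ _, hB0⟩⟩
  have hB' := (mem_filter.1 hB).2
  have hpos : ∀ b ∈ B.1, 0 < D.crd ℚ B (deg ℚ d a) b := fun b hb =>
    lt_of_le_of_ne (hB' b) (hg B b hb).symm
  refine ⟨B, hpos, fun j => ?_⟩
  set w : J → ℚ := Pi.single j (D.N : ℚ) - D.crd ℚ B fun i => d j i with hw
  obtain ⟨t, ht, h1⟩ := exists_small (D.crd ℚ B (deg ℚ d a)) w fun b => by
    by_cases hb : b ∈ B.1
    · exact .inl (hpos b hb)
    · refine .inr ⟨hB' b, ?_⟩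
      simp only [hw, Pi.sub_apply, D.crd_off B _ hb, sub_zero, Pi.single_apply]
      split_ifs <;> positivity
  have e1 : (fun i => (d j i : ℚ)) = deg ℚ d (Pi.single j 1) := by
    ext i
    rw [deg_single, one_mul]
  have h2 : deg ℚ d w = 0 := by
    rw [hw, map_sub, e1, deg_crd, sub_eq_zero]
    ext i
    simp [deg_single]
  obtain ⟨B', h3, h4⟩ := D.red hd c _ h1
  have h8 : deg ℚ d (D.crd ℚ B (deg ℚ d a) + t • w) = (D.N : ℚ) • deg ℚ d a := by
    rw [map_add, map_smul, h2, smul_zero, add_zero, deg_crd]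
  rw [h8, map_smul] at h3 h4
  rw [map_smul] at h4
  have h5 := hmax B' (mem_filter.2 ⟨mem_univ _, fun b => by
    have := h3 b
    simp only [Pi.zero_apply, Pi.smul_apply, smul_eq_mul] at this
    exact nonneg_of_mul_nonneg_right this hN⟩)
  have h6 := (le_of_smul_le_smul_left h4 hN).trans h5
  rw [map_add, map_smul, add_le_iff_nonpos_right, ← smul_zero t] at h6
  have h7 := le_of_smul_le_smul_left h6 ht
  rw [hw, map_sub, sub_nonpos] at h7
  convert h7
  rw [val_apply, sum_eq_single j] <;> simp +contextual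

end LP

/-- `x₀` lies on none of the hyperplanes -/
def Gen (x₀ : ι → ℤ) : Prop := ∀ B : Bs d, ∀ b ∈ B.1, D.crd ℤ B x₀ b ≠ 0

/-- `x₀` lies in the interior of the simplicial cone of `B` -/
def Good (x₀ : ι → ℤ) (B : Bs d) : Prop := ∀ b ∈ B.1, 0 < D.crd ℤ B x₀ b

/-- the linear programme with weights in any ordered group -/
theorem lp_int {A : Type*} [AddCommGroup A] [LinearOrder A] [IsOrderedAddMonoid A] (hd : Pt d)
    (c : J → A) {a₀ : J → ℤ} (ha : 0 ≤ a₀) (hg : D.Gen (deg ℤ d a₀)) :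
    ∃ B : Bs d, D.Good (deg ℤ d a₀) B ∧
      ∀ a : J → ℤ, 0 ≤ a → D.N • ∑ j, a j • c j ≤ ∑ b, D.crd ℤ B (deg ℤ d a) b • c b := by
  have e : ∀ B b, D.crd ℚ B (deg ℚ d fun j => a₀ j) b = D.crd ℤ B (deg ℤ d a₀) b := by
    intro B b
    rw [D.cast_crd]
    simp only [cast_deg]
  obtain ⟨B, h1, h2⟩ := D.lp hd (fun j => (c j : DivisibleHull A)) (a := fun j => a₀ j)
    (fun j => by simpa using ha j) fun B b hb => by
      rw [e]
      exact_mod_cast hg B b hb
  refine ⟨B, fun b hb => ?_, fun a h0 => ?_⟩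
  · have := h1 b hb
    rw [e] at this
    exact_mod_cast this
  have h3 : ∀ j, D.N • c j ≤ ∑ b, D.crd ℤ B (d j) b • c b := by
    intro j
    have h4 := h2 j
    rw [val_apply] at h4
    simp only [← D.cast_crd, Int.cast_smul_eq_zsmul, Nat.cast_smul_eq_nsmul] at h4
    let φ := DivisibleHull.coeAddMonoidHom A
    have h5 : φ (D.N • c j) ≤ φ (∑ b, D.crd ℤ B (d j) b • c b) := by
      simp only [map_nsmul, map_sum, map_zsmul]
      exact h4
    have h6 : DivisibleHull.mk (D.N • c j) 1 ≤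
      DivisibleHull.mk (∑ b, D.crd ℤ B (d j) b • c b) 1 := h5
    simpa using h6
  calc D.N • ∑ j, a j • c j = ∑ j, a j • D.N • c j := by
        rw [smul_sum]
        exact sum_congr rfl fun j _ => smul_comm _ _ _
    _ ≤ ∑ j, a j • ∑ b, D.crd ℤ B (d j) b • c b :=
        sum_le_sum fun j _ => zsmul_le_zsmul_right (h0 j) (h3 j)
    _ = _ := by
        simp only [smul_sum, smul_smul]
        rw [sum_comm]
        refine sum_congr rfl fun b _ => ?_
        rw [← sum_smul]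
        congr 1
        simp only [crd_apply, deg_apply, mul_sum, Int.cast_id]
        rw [sum_comm]
        exact sum_congr rfl fun i _ => sum_congr rfl fun j _ => by ring

/-! ### chambers -/

/-- the closed chamber of `x₀` -/
def Ch (x₀ : ι → ℤ) : Set (ι → ℝ) :=
  {x | x ∈ LinearMap.range (deg ℝ d) ∧ ∀ B b, 0 ≤ (D.crd ℤ B x₀ b : ℝ) * D.crd ℝ B x b}

variable {D}

theorem Good.nonneg {x₀ : ι → ℤ} {B : Bs d} (h : D.Good x₀ B) {x : ι → ℝ} (hx : x ∈ D.Ch x₀) :
    0 ≤ D.crd ℝ B x := by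
  intro b
  by_cases hb : b ∈ B.1
  · exact nonneg_of_mul_nonneg_right (hx.2 B b) (Int.cast_pos.2 (h b hb))
  · simp [D.crd_off B _ hb]

theorem Good.nonneg_int {x₀ : ι → ℤ} {B : Bs d} (h : D.Good x₀ B) {x : ι → ℤ}
    (hx : (fun i => (x i : ℝ)) ∈ D.Ch x₀) : 0 ≤ D.crd ℤ B x := by
  intro b
  have := h.nonneg hx b
  rw [← D.cast_crd] at this
  exact Int.cast_nonneg_iff.1 this

theorem deg_crd_of_mem (B : Bs d) {x : ι → K} (hx : x ∈ LinearMap.range (deg K d)) :
    deg K d (D.crd K B x) = (D.N : K) • x := by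
  obtain ⟨a, rfl⟩ := hx
  exact D.deg_crd B a

theorem deg_crd_int (B : Bs d) {x : ι → ℤ} (hx : (fun i => (x i : ℝ)) ∈ LinearMap.range (deg ℝ d)) :
    deg ℤ d (D.crd ℤ B x) = (D.N : ℤ) • x := by
  ext i
  have h := congrFun (deg_crd_of_mem (D := D) B hx) i
  have : ((deg ℤ d (D.crd ℤ B x) i : ℤ) : ℝ) = (((D.N : ℤ) • x) i : ℤ) := by
    rw [cast_deg]
    simp only [D.cast_crd]
    rw [h]
    simp
  exact_mod_cast this

theorem cast_deg_mem (a : J → ℤ) :
    (fun i => ((deg ℤ d a i : ℤ) : ℝ)) ∈ LinearMap.range (deg ℝ d) :=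
  ⟨fun j => a j, funext fun i => (cast_deg a i).symm⟩

theorem self_mem_ch (a : J → ℤ) : (fun i => ((deg ℤ d a i : ℤ) : ℝ)) ∈ D.Ch (deg ℤ d a) :=
  ⟨cast_deg_mem a, fun B b => by rw [← D.cast_crd]; exact mul_self_nonneg _⟩


theorem smul_mem_ch {x₀ : ι → ℤ} {x : ι → ℝ} (hx : x ∈ D.Ch x₀) {t : ℝ} (ht : 0 ≤ t) :
    t • x ∈ D.Ch x₀ :=
  ⟨Submodule.smul_mem _ _ hx.1, fun B b => by
    rw [map_smul, Pi.smul_apply, smul_eq_mul, mul_left_comm]; exact mul_nonneg ht (hx.2 B b)⟩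

/-- a generic point is an interior point of its chamber -/
theorem Gen.exists_add {x₀ : ι → ℤ} (h : D.Gen x₀)
    (h0 : (fun i => (x₀ i : ℝ)) ∈ LinearMap.range (deg ℝ d)) {y : ι → ℝ}
    (hy : y ∈ LinearMap.range (deg ℝ d)) :
    ∃ m : ℕ, (m : ℝ) • (fun i => (x₀ i : ℝ)) + y ∈ D.Ch x₀ := by
  have h1 : ∀ᶠ m : ℕ in atTop, ∀ B b, 0 ≤ (D.crd ℤ B x₀ b : ℝ) *
      D.crd ℝ B ((m : ℝ) • (fun i => (x₀ i : ℝ)) + y) b := by
    simp only [eventually_all]
    intro B b
    by_cases hb : b ∈ B.1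
    · have h2 : (0 : ℝ) < (D.crd ℤ B x₀ b : ℝ) * (D.crd ℤ B x₀ b : ℝ) :=
        mul_self_pos.2 (by exact_mod_cast h B b hb)
      filter_upwards [(tendsto_natCast_atTop_atTop.atTop_mul_const h2).eventually_ge_atTop
        (-((D.crd ℤ B x₀ b : ℝ) * D.crd ℝ B y b))] with m hm
      rw [map_add, map_smul, Pi.add_apply, Pi.smul_apply, smul_eq_mul, ← D.cast_crd]
      nlinarith
    · simp [D.crd_off B _ hb]
  obtain ⟨m, hm⟩ := h1.exists
  exact ⟨m, add_mem (Submodule.smul_mem _ _ h0) hy, hm⟩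

variable (d) in
/-- the real cone spanned by the degrees -/
def _root_.Crest.Agent.X262.FG.Fan.Cone : Set (ι → ℝ) := {x | ∃ a : J → ℝ, 0 ≤ a ∧ deg ℝ d a = x}

theorem ch_subset (hd : Pt d) {a₀ : J → ℤ} (ha : 0 ≤ a₀) (hg : D.Gen (deg ℤ d a₀)) :
    D.Ch (deg ℤ d a₀) ⊆ Cone d := by
  obtain ⟨B, hB, -⟩ := D.lp_int hd (fun _ => (0 : ℤ)) ha hg
  intro x hx
  have hN : (0 : ℝ) < D.N := by exact_mod_cast D.N_pos
  refine ⟨(D.N : ℝ)⁻¹ • D.crd ℝ B x, smul_nonneg (by positivity) (hB.nonneg hx), ?_⟩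
  rw [map_smul, deg_crd_of_mem B hx.1, smul_smul, inv_mul_cancel₀ hN.ne', one_smul]

variable (D) in
/-- every point of the cone lies in the chamber of a generic lattice point -/
theorem cover {x : ι → ℝ} (hx : x ∈ Cone d) :
    ∃ a₀ : J → ℤ, 0 ≤ a₀ ∧ D.Gen (deg ℤ d a₀) ∧ x ∈ D.Ch (deg ℤ d a₀) := by
  classical
  obtain ⟨a, ha, rfl⟩ := hx
  have hN : (0 : ℝ) < D.N := by exact_mod_cast D.N_pos
  let φ : Bs d → J → (J → ℝ) →ₗ[ℝ] ℝ := fun B b =>
    LinearMap.proj b ∘ₗ D.crd ℝ B ∘ₗ deg ℝ d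
  have hφ : ∀ B b u, φ B b u = D.crd ℝ B (deg ℝ d u) b := fun _ _ _ => rfl
  have hc : ∀ B b, Continuous (φ B b) := fun B b => (φ B b).continuous_of_finiteDimensional
  let U : Set (J → ℝ) := (⋂ j, {u | 0 < u j}) ∩
    ⋂ p : {p : Bs d × J // φ p.1 p.2 a ≠ 0}, {u | 0 < φ p.1.1 p.1.2 u * φ p.1.1 p.1.2 a}
  let V : Set (J → ℝ) := ⋂ p : {p : Bs d × J // p.2 ∈ p.1.1}, {u | φ p.1.1 p.1.2 u ≠ 0}
  have hU : IsOpen U :=
    (isOpen_iInter_of_finite fun j => isOpen_lt continuous_const (continuous_apply j)).inter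
      (isOpen_iInter_of_finite fun p => isOpen_lt continuous_const ((hc _ _).mul continuous_const))
  have hV1 : ∀ p : {p : Bs d × J // p.2 ∈ p.1.1}, IsOpen {u | φ p.1.1 p.1.2 u ≠ 0} := fun p =>
    isOpen_ne_fun (hc _ _) continuous_const
  have hV : IsOpen V := isOpen_iInter_of_finite hV1
  have hVd : Dense V := by
    refine dense_iInter_of_isOpen hV1 fun p => ?_
    have h1 : interior (LinearMap.ker (φ p.1.1 p.1.2) : Set (J → ℝ)) = ∅ := by
      by_contra h
      have h2 := Submodule.eq_top_of_nonempty_interior' _ (Set.nonempty_iff_ne_empty.2 h)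
      have h3 : φ p.1.1 p.1.2 (Pi.single p.1.2 1) = 0 := by
        rw [← LinearMap.mem_ker, h2]
        trivial
      rw [hφ, D.crd_deg _ fun j hj => Pi.single_eq_of_ne (fun e : j = p.1.2 => hj (e ▸ p.2)) _]
        at h3
      simp [D.N_pos.ne'] at h3
    exact interior_eq_empty_iff_dense_compl.1 h1
  have hUn : U.Nonempty := by
    have h1 : Tendsto (fun t : ℝ => a + fun _ => t) (𝓝 0) (𝓝 (a + fun _ => 0)) :=
      Continuous.tendsto (by fun_prop) _
    have h2 : (a + fun _ => 0) = a := by ext; simp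
    rw [h2] at h1
    have h3 : ∀ᶠ t : ℝ in 𝓝[>] 0, (a + fun _ => t) ∈ U := by
      have h4 := h1.eventually ((isOpen_iInter_of_finite
        fun p : {p : Bs d × J // φ p.1 p.2 a ≠ 0} => isOpen_lt (continuous_const (y := (0 : ℝ)))
          ((hc p.1.1 p.1.2).mul (continuous_const (y := φ p.1.1 p.1.2 a)))).mem_nhds
            (Set.mem_iInter.2 fun p => mul_self_pos.2 p.2))
      filter_upwards [self_mem_nhdsWithin, h4.filter_mono nhdsWithin_le_nhds] with t ht h5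
      exact ⟨Set.mem_iInter.2 fun j => add_pos_of_nonneg_of_pos (ha j) ht, h5⟩
    exact ⟨_, h3.exists.choose_spec⟩
  have hq : DenseRange (Pi.map fun (_ : J) (q : ℚ) => (q : ℝ)) :=
    DenseRange.piMap fun _ => Rat.denseRange_cast
  obtain ⟨q, hq1, hq2⟩ := hq.exists_mem_open (hU.inter hV) (hVd.inter_open_nonempty U hU hUn)
  obtain ⟨m, hm, hn⟩ := exists_den q
  choose n hn using hn
  have hm' : (0 : ℝ) < m := by exact_mod_cast hm
  have e : (fun j => (n j : ℝ)) = (m : ℝ) • Pi.map (fun (_ : J) (q : ℚ) => (q : ℝ)) q := by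
    ext j
    have := congrArg (fun r : ℚ => (r : ℝ)) (hn j)
    simpa using this
  have e2 : ∀ B b, (D.crd ℤ B (deg ℤ d n) b : ℝ) =
      m * φ B b (Pi.map (fun (_ : J) (q : ℚ) => (q : ℝ)) q) := by
    intro B b
    rw [D.cast_crd]
    simp only [cast_deg]
    rw [← smul_eq_mul, ← map_smul, ← e]
    rfl
  refine ⟨n, fun j => ?_, fun B b hb h => ?_, ⟨a, rfl⟩, fun B b => ?_⟩
  · have h1 : (0 : ℝ) < q j := Set.mem_iInter.1 hq1.1 j
    have h2 : (n j : ℝ) = m * q j := congrFun e j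
    have : (0 : ℝ) ≤ n j := by rw [h2]; positivity
    exact_mod_cast this
  · have h1 := e2 B b
    rw [h, Int.cast_zero] at h1
    exact mul_ne_zero hm'.ne' (Set.mem_iInter.1 hq2 ⟨(B, b), hb⟩) h1.symm
  · rw [e2, ← hφ, mul_assoc]
    refine mul_nonneg hm'.le ?_
    by_cases h : φ B b a = 0
    · rw [h, mul_zero]
    · exact le_of_lt (Set.mem_iInter.1 hq1.2 ⟨(B, b), h⟩)

variable (D) in
/-- the chambers: sign vectors of generic lattice points of the cone -/
def C : Type _ := {σ : Bs d → J → SignType // ∃ a₀ : J → ℤ, 0 ≤ a₀ ∧ D.Gen (deg ℤ d a₀) ∧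
  ∀ B b, SignType.sign (D.crd ℤ B (deg ℤ d a₀) b) = σ B b}

instance : Finite D.C := by unfold C; infer_instance

/-- exponents of a generic lattice point of the chamber -/
def C.pt (c : D.C) : J → ℤ := c.2.choose

theorem C.pt_nonneg (c : D.C) : 0 ≤ c.pt := c.2.choose_spec.1

theorem C.gen (c : D.C) : D.Gen (deg ℤ d c.pt) := c.2.choose_spec.2.1

theorem C.sign (c : D.C) (B : Bs d) (b : J) :
    SignType.sign (D.crd ℤ B (deg ℤ d c.pt) b) = c.1 B b := c.2.choose_spec.2.2 B b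

theorem mul_nonneg_of_sign {u v : ℤ} (h : SignType.sign u = SignType.sign v) {r : ℝ}
    (hr : 0 ≤ (u : ℝ) * r) : 0 ≤ (v : ℝ) * r := by
  rcases lt_trichotomy u 0 with hu | hu | hu
  · rw [sign_neg hu, eq_comm, sign_eq_neg_one_iff] at h
    have h1 : (u : ℝ) < 0 := by exact_mod_cast hu
    have h2 : (v : ℝ) < 0 := by exact_mod_cast h
    exact mul_nonneg_of_nonpos_of_nonpos h2.le (by nlinarith)
  · rw [hu, sign_zero, eq_comm, sign_eq_zero_iff] at h
    simp [h]
  · rw [sign_pos hu, eq_comm, sign_eq_one_iff] at h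
    have h1 : (0 : ℝ) < u := by exact_mod_cast hu
    have h2 : (0 : ℝ) < v := by exact_mod_cast h
    exact mul_nonneg h2.le (by nlinarith)

variable (D) in
theorem cover' {x : ι → ℝ} (hx : x ∈ Cone d) : ∃ c : D.C, x ∈ D.Ch (deg ℤ d c.pt) := by
  obtain ⟨a₀, h1, h2, h3⟩ := D.cover hx
  let c : D.C := ⟨_, a₀, h1, h2, fun _ _ => rfl⟩
  exact ⟨c, h3.1, fun B b => mul_nonneg_of_sign (c.sign B b).symm (h3.2 B b)⟩

theorem C.eq_of_mem {c c' : D.C}
    (h : (fun i => ((deg ℤ d c'.pt i : ℤ) : ℝ)) ∈ D.Ch (deg ℤ d c.pt)) : c = c' := by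
  refine Subtype.ext (funext fun B => funext fun b => ?_)
  rw [← c.sign, ← c'.sign]
  by_cases hb : b ∈ B.1
  · have h1 := h.2 B b
    rw [← D.cast_crd] at h1
    have h2 : 0 ≤ D.crd ℤ B (deg ℤ d c.pt) b * D.crd ℤ B (deg ℤ d c'.pt) b := by exact_mod_cast h1
    have h3 := c.gen B b hb
    have h4 := c'.gen B b hb
    rcases lt_or_gt_of_ne h3 with h5 | h5 <;> rcases lt_or_gt_of_ne h4 with h6 | h6
    · rw [sign_neg h5, sign_neg h6]
    · nlinarith
    · nlinarith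
    · rw [sign_pos h5, sign_pos h6]
  · rw [D.crd_off B _ hb, D.crd_off B _ hb]

end Dat

end Crest.Agent.X262.FG.Fan
end
end

-- ▼ part X262/FG/FanB76
section

/-!
# X262/FG/FanB76 (helper76): chambers of a finitely generated ring of b-divisors

If `⊕ H⁰(∑ n i • D i)` is finitely generated, its support is a finitely generated cone which an
arrangement of rational hyperplanes cuts into finitely many chambers; on the chamber `c` the mobile
part of `N • ∑ n i • D i` is `∑ n i • P c i` (`Geo`, `nonempty_geo`).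
-/

set_option autoImplicit false
set_option linter.unusedSectionVars false

noncomputable section

open Finset

namespace Crest.Agent.X262.FG.Fan

open Crest.Agent.X277 Crest.Agent.X277.BD Crest.Agent.X262.Cvx

variable {k F : Type*} [Field k] [Field F] [Algebra k F] {I : Type} [Fintype I]

/-- the value of an integral linear form -/
def ev (h : I → ℤ) (x : I → ℝ) : ℝ := ∑ i, h i * x i

/-- a degree as a real point -/
def rl (n : I → ℕ) : I → ℝ := fun i => n i

theorem ev_add (h : I → ℤ) (x y : I → ℝ) : ev h (x + y) = ev h x + ev h y := by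
  simp [ev, mul_add, sum_add_distrib]

theorem ev_smul (h : I → ℤ) (t : ℝ) (x : I → ℝ) : ev h (t • x) = t * ev h x := by
  simp [ev, mul_sum, mul_left_comm]

theorem rl_add (n m : I → ℕ) : rl (n + m) = rl n + rl m := by ext; simp [rl]

theorem rl_smul (m : ℕ) (n : I → ℕ) : rl (m • n) = (m : ℝ) • rl n := by ext; simp [rl]

/-- a cone with an arrangement of hyperplanes and points in its chambers -/
structure Arr (I : Type) where
  /-- generators of the cone -/
  J : Type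
  [finJ : Fintype J]
  d : J → I → ℕ
  /-- the hyperplanes -/
  H : Type
  [finH : Fintype H]
  h : H → I → ℤ
  /-- the chambers -/
  C : Type
  [finC : Fintype C]
  a : C → J → ℕ

attribute [instance] Arr.finJ Arr.finH Arr.finC

namespace Arr

variable (A : Arr I)

/-- the cone -/
def Supp : Set (I → ℝ) := {x | ∃ t : A.J → ℝ, 0 ≤ t ∧ ∑ j, t j • rl (A.d j) = x}

/-- the linear span of the cone -/
def Sp : Submodule ℝ (I → ℝ) := Submodule.span ℝ (Set.range fun j => rl (A.d j))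

/-- the interior lattice point of a chamber -/
def pt (c : A.C) : I → ℕ := ∑ j, A.a c j • A.d j

/-- the closed chamber -/
def Ch (c : A.C) : Set (I → ℝ) :=
  {x | x ∈ A.Sp ∧ ∀ l, 0 ≤ ev (A.h l) (rl (A.pt c)) * ev (A.h l) x}

/-- the relative interior of the chamber -/
def Int (c : A.C) : Set (I → ℝ) :=
  {x | x ∈ A.Sp ∧ ∀ l, 0 < ev (A.h l) (rl (A.pt c)) * ev (A.h l) x}

variable {A}

theorem mem_sp {x : I → ℝ} : x ∈ A.Sp ↔ ∃ t : A.J → ℝ, ∑ j, t j • rl (A.d j) = x :=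
  Submodule.mem_span_range_iff_exists_fun ℝ

theorem supp_sp {x : I → ℝ} (h : x ∈ A.Supp) : x ∈ A.Sp := by
  obtain ⟨t, -, h⟩ := h
  exact mem_sp.2 ⟨t, h⟩

theorem rl_sum_mem (a : A.J → ℕ) : rl (∑ j, a j • A.d j) ∈ A.Supp :=
  ⟨fun j => a j, fun j => Nat.cast_nonneg _, by ext i; simp [rl, Finset.sum_apply]⟩

theorem supp_nonneg {x : I → ℝ} (h : x ∈ A.Supp) : 0 ≤ x := by
  obtain ⟨t, ht, rfl⟩ := h
  exact sum_nonneg fun j _ => smul_nonneg (ht j) fun i => Nat.cast_nonneg _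

theorem supp_add {x y : I → ℝ} (hx : x ∈ A.Supp) (hy : y ∈ A.Supp) : x + y ∈ A.Supp := by
  obtain ⟨t, ht, rfl⟩ := hx
  obtain ⟨s, hs, rfl⟩ := hy
  exact ⟨t + s, add_nonneg ht hs, by simp [add_smul, sum_add_distrib]⟩

theorem supp_smul {x : I → ℝ} (hx : x ∈ A.Supp) {r : ℝ} (hr : 0 ≤ r) : r • x ∈ A.Supp := by
  obtain ⟨t, ht, rfl⟩ := hx
  exact ⟨r • t, smul_nonneg hr ht, by simp [smul_sum, smul_smul]⟩

variable {c : A.C} {x y : I → ℝ}




theorem ch_smul (hx : x ∈ A.Ch c) {r : ℝ} (hr : 0 ≤ r) : r • x ∈ A.Ch c :=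
  ⟨Submodule.smul_mem _ _ hx.1, fun l => by
    rw [ev_smul, mul_left_comm]; exact mul_nonneg hr (hx.2 l)⟩




/-- interior points absorb every point of the span -/
theorem exists_add (hx : x ∈ A.Int c) (hy : y ∈ A.Sp) :
    ∃ m₀ : ℕ, ∀ m : ℕ, m₀ ≤ m → (m : ℝ) • x + y ∈ A.Int c := by
  have h1 : ∀ᶠ m : ℕ in Filter.atTop, ∀ l,
      0 < ev (A.h l) (rl (A.pt c)) * ev (A.h l) ((m : ℝ) • x + y) := by
    rw [Filter.eventually_all]
    intro l
    filter_upwards [(tendsto_natCast_atTop_atTop.atTop_mul_const (hx.2 l)).eventually_gt_atTop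
      (-(ev (A.h l) (rl (A.pt c)) * ev (A.h l) y))] with m hm
    rw [ev_add, ev_smul]
    linarith
  obtain ⟨m₀, h⟩ := Filter.eventually_atTop.1 h1
  exact ⟨m₀, fun m hm => ⟨add_mem (Submodule.smul_mem _ _ hx.1) hy, h m hm⟩⟩





end Arr

/-- the chamber decomposition of the ring of the family `D` -/
structure Geo (D : I → BD k F) extends Arr I where
  /-- the index of the Veronese subring -/
  N : ℕ
  N_pos : 0 < N
  /-- the mobile part on a chamber -/
  P : C → I → BD k F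
  d_ne : ∀ j, d j ≠ 0
  eff : ∀ j, ∃ f ∈ (∑ i, d j i • D i).Sec, f ≠ 0
  supp : ∀ n : I → ℕ, (∃ f ∈ (∑ i, n i • D i).Sec, f ≠ 0) → ∃ a : J → ℕ, ∑ j, a j • d j = n
  gen : ∀ c l, ev (h l) (rl (toArr.pt c)) ≠ 0
  cover : ∀ x ∈ toArr.Supp, ∃ c, x ∈ toArr.Ch c
  sub : ∀ c, toArr.Ch c ⊆ toArr.Supp
  inj : ∀ c c', rl (toArr.pt c') ∈ toArr.Ch c → c = c'
  Sec_le : ∀ c (n : I → ℕ), (N • ∑ i, n i • D i).Sec ≤ (∑ i, n i • P c i).Sec
  free : ∀ c (n : I → ℕ), rl n ∈ toArr.Ch c → Free (∑ i, n i • P c i)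
  le : ∀ c (n : I → ℕ), rl n ∈ toArr.Ch c → ∑ i, n i • P c i ≤ N • ∑ i, n i • D i

theorem sum_smul_sum {J : Type*} [Fintype J] (D : I → BD k F) (a : J → ℕ) (d : J → I → ℕ) :
    ∑ i, (∑ j, a j • d j) i • D i = ∑ j, a j • ∑ i, d j i • D i := by
  simp only [Finset.sum_apply, Pi.smul_apply, smul_eq_mul, sum_smul, smul_sum, smul_smul]
  exact sum_comm

theorem sum_nsmul_smul (D : I → BD k F) (m : ℕ) (n : I → ℕ) :
    ∑ i, (m • n) i • D i = m • ∑ i, n i • D i := by
  simp only [Pi.smul_apply, smul_eq_mul, smul_sum, smul_smul]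

/-- generators of non-zero degree -/
theorem exists_gen {D : I → BD k F} (hD : Gr.FG (fun n : I → ℕ => (∑ i, n i • D i).Sec) ⊤) :
    ∃ (J : Type) (_ : Fintype J) (d : J → I → ℕ) (f : J → F),
      (∀ j, d j ≠ 0 ∧ f j ≠ 0 ∧ f j ∈ (∑ i, d j i • D i).Sec) ∧
      ∀ (n : I → ℕ), ∀ g ∈ (∑ i, n i • D i).Sec, ∀ (V : RZ k F) (γ : V.1.ValueGroup),
        (∀ a : J → ℕ, ∑ j, a j • d j = n → ∏ j, V.v (f j) ^ a j ≤ γ) → V.v g ≤ γ := by
  classical
  obtain ⟨r, d, f, h1, h2⟩ := hD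
  let p : Fin r → Prop := fun j => d j ≠ 0 ∧ f j ≠ 0
  refine ⟨{j // p j}, inferInstance, fun j => d j, fun j => f j,
    fun j => ⟨j.2.1, j.2.2, (h1 j).2⟩, fun n g hg V γ h => ?_⟩
  refine RZ.v_le_of_span ?_ (h2 n trivial hg)
  rintro _ ⟨a, ha, rfl⟩
  by_cases h0 : ∃ j, f j = 0 ∧ a j ≠ 0
  · obtain ⟨j, hj, hj'⟩ := h0
    rw [prod_eq_zero (mem_univ j) (by rw [hj, zero_pow hj']), map_zero]
    exact zero_le
  push Not at h0
  refine le_trans ?_ (h (fun j => a j) ?_)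
  · rw [map_prod, ← Fintype.prod_subtype_mul_prod_subtype p]
    simp only [map_pow]
    refine mul_le_of_le_one_right' (prod_le_one' fun j _ => ?_)
    by_cases hf : f j = 0
    · rw [h0 j hf, pow_zero]
    · have hd : d j = 0 := by
        by_contra hd
        exact j.2 ⟨hd, hf⟩
      have := (h1 j).2 V
      rw [hd] at this
      exact pow_le_one' (by simpa using this) _
  · rw [← ha, ← Fintype.sum_subtype_add_sum_subtype p fun j => a j • d j, left_eq_add]
    refine sum_eq_zero fun j _ => ?_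
    by_cases hf : f j = 0
    · rw [h0 j hf, zero_smul]
    · have hd : d j = 0 := by
        by_contra hd
        exact j.2 ⟨hd, hf⟩
      rw [hd, smul_zero]

section Cons

variable {J : Type} [Fintype J] {d : J → I → ℤ} (T : Dat d) {f : J → F} (hf : ∀ j, f j ≠ 0)

/-- the values of the generators -/
def uv (V : RZ k F) (j : J) : (V.1.ValueGroup)ˣ := Units.mk0 (V.v (f j)) (RZ.ne_zero_iff.2 (hf j))

theorem exists_bs (hd : Pt d) (c : T.C) (V : RZ k F) : ∃ B : Bs d, T.Good (deg ℤ d c.pt) B ∧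
    ∀ a : J → ℤ, 0 ≤ a →
      (∏ j, uv hf V j ^ a j) ^ T.N ≤ ∏ b, uv hf V b ^ T.crd ℤ B (deg ℤ d a) b := by
  obtain ⟨B, h1, h2⟩ := T.lp_int hd (fun j => Additive.ofMul (uv hf V j)) c.pt_nonneg c.gen
  refine ⟨B, h1, fun a ha => ?_⟩
  have := Additive.toMul_le.2 (h2 a ha)
  simpa only [toMul_nsmul, toMul_sum, toMul_zsmul, toMul_ofMul] using this

variable (hd : Pt d) (c : T.C)

/-- the extremal value in degree `N x` -/
def del (x : I → ℤ) : Fm k F := fun V =>
  ∏ b, uv hf V b ^ T.crd ℤ (exists_bs T hf hd c V).choose x b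

theorem del_add (x y : I → ℤ) :
    del (k := k) T hf hd c (x + y) = del T hf hd c x * del T hf hd c y := by
  ext V
  simp only [del, map_add, Pi.add_apply, zpow_add, prod_mul_distrib, Pi.mul_apply]

/-- `del` as a homomorphism -/
def delH : (I → ℤ) →+ Additive (Fm k F) :=
  AddMonoidHom.mk' (fun x => Additive.ofMul (del T hf hd c x)) fun x y => by
    rw [del_add, ofMul_mul]

theorem del_nsmul (m : ℕ) (x : I → ℤ) :
    del (k := k) T hf hd c (m • x) = del T hf hd c x ^ m :=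
  congrArg Additive.toMul (map_nsmul (delH (k := k) T hf hd c) m x)

theorem le_del {a : J → ℤ} (ha : 0 ≤ a) {x : I → ℤ} (h : deg ℤ d a = T.N • x) (V : RZ k F) :
    ∏ j, uv hf V j ^ a j ≤ del T hf hd c x V := by
  have h1 : _ ≤ del T hf hd c (deg ℤ d a) V := (exists_bs T hf hd c V).choose_spec.2 a ha
  rw [h, del_nsmul, Pi.pow_apply] at h1
  exact le_of_pow_le_pow_left' T.N_pos.ne' h1

theorem v_mon (V : RZ k F) (a : J → ℕ) :
    V.v (∏ j, f j ^ a j) = (∏ j, uv hf V j ^ (a j : ℤ) : (V.1.ValueGroup)ˣ) := by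
  simp [uv]

/-- on the chamber `del` is generated by monomials -/
theorem exists_mon {x : I → ℤ} (hx : (fun i => (x i : ℝ)) ∈ T.Ch (deg ℤ d c.pt)) :
    ∃ s : Finset (J → ℕ), (∀ a ∈ s, deg ℤ d (fun j => a j) = T.N • x) ∧
      ∀ V : RZ k F, ∃ a ∈ s, V.v (∏ j, f j ^ a j) = del T hf hd c x V := by
  classical
  have e : ∀ B, T.Good (deg ℤ d c.pt) B → ∀ j, ((T.crd ℤ B x j).toNat : ℤ) = T.crd ℤ B x j :=
    fun B hB j => Int.toNat_of_nonneg (hB.nonneg_int hx j)
  refine ⟨(univ.filter (T.Good (deg ℤ d c.pt))).image fun B j => (T.crd ℤ B x j).toNat,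
    fun a ha => ?_, fun V => ?_⟩
  · obtain ⟨B, hB, rfl⟩ := mem_image.1 ha
    simp only [e B (mem_filter.1 hB).2]
    rw [← natCast_zsmul]
    exact Dat.deg_crd_int B hx.1
  · have hB := (exists_bs T hf hd c V).choose_spec.1
    refine ⟨_, mem_image_of_mem _ (mem_filter.2 ⟨mem_univ _, hB⟩), ?_⟩
    rw [v_mon hf]
    simp only [e _ hB]
    rfl

theorem freeF_del {x : I → ℤ} (hx : (fun i => (x i : ℝ)) ∈ T.Ch (deg ℤ d c.pt)) :
    FreeF (del (k := k) T hf hd c x) := by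
  classical
  obtain ⟨s, h1, h2⟩ := exists_mon (k := k) T hf hd c hx
  refine ⟨s.image fun a => ∏ j, f j ^ a j, fun g hg V => ?_, fun V => ?_⟩
  · obtain ⟨a, ha, rfl⟩ := mem_image.1 hg
    rw [v_mon hf]
    exact Units.val_le_val.2 (le_del T hf hd c (fun j => Int.natCast_nonneg _) (h1 a ha) V)
  · obtain ⟨a, ha, h⟩ := h2 V
    exact ⟨_, mem_image_of_mem _ ha, h⟩

theorem del_mem {x : I → ℤ} (hx : (fun i => (x i : ℝ)) ∈ LinearMap.range (deg ℝ d)) :
    del T hf hd c x ∈ Car k F := by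
  obtain ⟨m, hm⟩ := c.gen.exists_add (Dat.cast_deg_mem _) hx
  refine ⟨del T hf hd c (m • deg ℤ d c.pt + x), del T hf hd c (m • deg ℤ d c.pt),
    freeF_del T hf hd c ?_, freeF_del T hf hd c ?_, by rw [del_add, mul_comm]⟩
  · convert hm using 1
    ext i
    simp
  · convert Dat.smul_mem_ch (Dat.self_mem_ch (D := T) c.pt) (Nat.cast_nonneg m) using 1
    ext i
    simp

theorem Q_mem (B : Bs d) (i : I) : (fun i' => (T.Q i i' : ℝ)) ∈ LinearMap.range (deg ℝ d) :=
  ⟨_, (T.Q_eq B i).symm⟩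

/-- the mobile parts -/
def mob (i : I) : BD k F := Additive.ofMul (α := Car k F)
  ⟨del T hf hd c (T.Q i), del_mem T hf hd c (Q_mem T (exists_bs T hf hd c (RZ.top k F)).choose i)⟩

theorem val_mob {n : I → ℕ} (hn : (fun i => (n i : ℝ)) ∈ LinearMap.range (deg ℝ d)) (V : RZ k F) :
    (∑ i, n i • mob T hf hd c i).val V = del T hf hd c (T.N • fun i => (n i : ℤ)) V := by
  have e : (T.N • fun i => (n i : ℤ)) = ∑ i, n i • T.Q i := by
    ext i'
    obtain ⟨a, ha⟩ := hn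
    have h := T.sum_deg_Q a i'
    rw [ha] at h
    have : (((T.N • fun i => (n i : ℤ)) i' : ℤ) : ℝ) = ((∑ i, n i • T.Q i) i' : ℤ) := by
      simp [Finset.sum_apply, h]
    exact_mod_cast this
  have h := congrArg Additive.toMul (map_sum (delH (k := k) T hf hd c) (fun i => n i • T.Q i) univ)
  simp only [map_nsmul, toMul_sum, toMul_nsmul] at h
  rw [e, val_sum]
  have h' : del T hf hd c (∑ i, n i • T.Q i) = ∏ i, del (k := k) T hf hd c (T.Q i) ^ n i := h
  rw [h', Finset.prod_apply, Units.coe_prod]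
  refine prod_congr rfl fun i _ => ?_
  rw [val_nsmul, Pi.pow_apply, Units.val_pow_eq_pow_val]
  rfl

end Cons

/-- **the fan lemma** -/
theorem nonempty_geo {D : I → BD k F} (hD : Gr.FG (fun n : I → ℕ => (∑ i, n i • D i).Sec) ⊤) :
    Nonempty (Geo D) := by
  classical
  obtain ⟨J, _, d, f, h1, h2⟩ := exists_gen hD
  let z : J → I → ℤ := fun j i => d j i
  have hd : Pt z := pt_of_nonneg (fun j i => Int.natCast_nonneg _) fun j h => (h1 j).1 (by
    ext i
    exact Int.natCast_eq_zero.1 (congrFun h i))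
  have hf : ∀ j, f j ≠ 0 := fun j => (h1 j).2.1
  obtain ⟨T⟩ := nonempty_dat z
  have := Fintype.ofFinite T.C
  let A : Arr I :=
    { J := J, d := d, H := {p : Bs z × J // p.2 ∈ p.1.1}, h := fun p => T.T p.1.1 p.1.2,
      C := T.C, a := fun c j => (c.pt j).toNat }
  have e0 : ∀ t : J → ℝ, ∑ j, t j • rl (d j) = deg ℝ z t := fun t => by
    ext i
    simp [deg_apply, rl, z, Finset.sum_apply]
  have e1 : ∀ a : J → ℕ, deg ℤ z (fun j => a j) = fun i => ((∑ j, a j • d j) i : ℤ) := fun a => by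
    ext i
    simp [deg_apply, z, Finset.sum_apply]
  have e2 : ∀ c : T.C, rl (A.pt c) = fun i => ((deg ℤ z c.pt i : ℤ) : ℝ) := fun c => by
    have : c.pt = fun j => ((c.pt j).toNat : ℤ) :=
      funext fun j => (Int.toNat_of_nonneg (c.pt_nonneg j)).symm
    rw [this, e1]
    ext i
    rw [Int.cast_natCast]
    rfl
  have e3 : ∀ x, x ∈ A.Sp ↔ x ∈ LinearMap.range (deg ℝ z) := fun x => by
    rw [Arr.mem_sp]
    exact exists_congr fun t => by rw [← e0]
  have e4 : ∀ x, x ∈ A.Supp ↔ x ∈ Cone z := fun x =>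
    exists_congr fun t => and_congr_right fun _ => by rw [← e0]
  have e5 : ∀ (c : T.C) (l : A.H),
      ev (A.h l) (rl (A.pt c)) = T.crd ℤ l.1.1 (deg ℤ z c.pt) l.1.2 := fun c l => by
    rw [e2, T.cast_crd]
    rfl
  have e6 : ∀ c x, x ∈ A.Ch c ↔ x ∈ T.Ch (deg ℤ z c.pt) := fun c x => by
    refine and_congr (e3 x) ⟨fun h B b => ?_, fun h l => ?_⟩
    · by_cases hb : b ∈ B.1
      · have := h ⟨(B, b), hb⟩
        rwa [e5] at this
      · simp [T.crd_off B _ hb]
    · rw [e5]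
      exact h l.1.1 l.1.2
  have hs : ∀ n : I → ℕ, (∃ g ∈ (∑ i, n i • D i).Sec, g ≠ 0) →
      ∃ a : J → ℕ, ∑ j, a j • d j = n := by
    rintro n ⟨g, hg, hg0⟩
    by_contra h
    exact (RZ.pos (V := RZ.top k F) hg0).not_ge (h2 n g hg _ 0 fun a ha => absurd ⟨a, ha⟩ h)
  have e7 : ∀ c (n : I → ℕ), rl n ∈ A.Ch c →
      (fun i => (((T.N • fun i => (n i : ℤ)) i : ℤ) : ℝ)) ∈ T.Ch (deg ℤ z c.pt) := fun c n hn => by
    convert Dat.smul_mem_ch ((e6 c _).1 hn) (Nat.cast_nonneg T.N) using 1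
    ext i
    simp [rl]
  refine ⟨{
    toArr := A
    N := T.N * T.N
    N_pos := Nat.mul_pos T.N_pos T.N_pos
    P := fun c => mob T hf hd c
    d_ne := fun j => (h1 j).1
    eff := fun j => ⟨f j, (h1 j).2.2, hf j⟩
    supp := hs
    gen := fun c l => by
      rw [e5]
      exact_mod_cast c.gen l.1.1 l.1.2 l.2
    cover := fun x hx => (T.cover' ((e4 x).1 hx)).imp fun c h => (e6 c x).2 h
    sub := fun c x hx => (e4 x).2 (Dat.ch_subset hd c.pt_nonneg c.gen ((e6 c x).1 hx))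
    inj := fun c c' h => Dat.C.eq_of_mem (by rwa [e6, e2] at h)
    Sec_le := fun c n g hg V => ?_
    free := fun c n hn => ?_
    le := fun c n hn V => ?_ }⟩
  · by_cases hg0 : g = 0
    · simp [hg0]
    rw [← sum_nsmul_smul] at hg
    have hn : rl n ∈ A.Sp := by
      obtain ⟨a, ha⟩ := hs _ ⟨g, hg, hg0⟩
      have h3 : rl (∑ j, a j • d j) ∈ A.Sp := Arr.supp_sp (Arr.rl_sum_mem (A := A) a)
      rw [ha, rl_smul] at h3
      exact (Submodule.smul_mem_iff _ (by exact_mod_cast (Nat.mul_pos T.N_pos T.N_pos).ne')).1 h3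
    rw [val_mob T hf hd c ((e3 _).1 hn)]
    refine h2 _ g hg V _ fun a ha => ?_
    have h3 := v_mon hf V a
    simp only [map_prod, map_pow] at h3
    rw [h3]
    refine Units.val_le_val.2 (le_del T hf hd c (fun j => Int.natCast_nonneg _) ?_ V)
    rw [e1, ha]
    ext i
    simp [mul_assoc]
  · obtain ⟨s, h3, h4⟩ := freeF_del (k := k) T hf hd c (e7 c n hn)
    exact ⟨s, fun g hg V => val_mob T hf hd c ((e3 _).1 hn.1) V ▸ h3 g hg V,
      fun V => val_mob T hf hd c ((e3 _).1 hn.1) V ▸ h4 V⟩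
  · obtain ⟨s, h3, h4⟩ := exists_mon (k := k) T hf hd c (e7 c n hn)
    obtain ⟨a, ha, h5⟩ := h4 V
    rw [val_mob T hf hd c ((e3 _).1 hn.1), ← h5, ← sum_nsmul_smul]
    have h6 : (T.N * T.N) • n = ∑ j, a j • d j := by
      have := h3 a ha
      rw [e1] at this
      ext i
      have h7 : (((∑ j, a j • d j) i : ℕ) : ℤ) = _ := congrFun this i
      have : ((((T.N * T.N) • n) i : ℕ) : ℤ) = ((∑ j, a j • d j) i : ℕ) := by
        rw [h7]
        simp [mul_assoc]
      exact_mod_cast this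
    rw [h6, sum_smul_sum]
    exact prod_mem_Sec univ (fun j _ => pow_mem_Sec (h1 j).2.2 (a j)) V

namespace Geo

variable {D : I → BD k F} (G : Geo D) {c : G.C} {n : I → ℕ}


/-- on the chamber `∑ n i • P c i` is the mobile part -/
theorem Sec_eq (h : rl n ∈ G.Ch c) : (∑ i, n i • G.P c i).Sec = (G.N • ∑ i, n i • D i).Sec :=
  le_antisymm (Sec_mono (G.le c n h)) (G.Sec_le c n)

/-- the same for all multiples -/
theorem Sec_nsmul (h : rl n ∈ G.Ch c) (m : ℕ) :
    (m • ∑ i, n i • G.P c i).Sec = (m • G.N • ∑ i, n i • D i).Sec := by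
  have := G.Sec_eq (n := m • n) (c := c) (rl_smul m n ▸ Arr.ch_smul h (Nat.cast_nonneg m))
  rwa [sum_nsmul_smul, sum_nsmul_smul, smul_comm] at this

/-- concavity: the mobile part is the minimum of the linear functions -/
theorem P_le (h : rl n ∈ G.Ch c) (c' : G.C) : ∑ i, n i • G.P c i ≤ ∑ i, n i • G.P c' i :=
  (G.free c n h).le_iff.2 (G.Sec_eq h ▸ G.Sec_le c' n)

theorem P_eq {c' : G.C} (h : rl n ∈ G.Ch c) (h' : rl n ∈ G.Ch c') :
    ∑ i, n i • G.P c i = ∑ i, n i • G.P c' i :=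
  le_antisymm (G.P_le h c') (G.P_le h' c)


/-- the lattice points of the cone are the `ℚ`-effective degrees -/
theorem mem_supp_iff :
    rl n ∈ G.Supp ↔ ∃ m : ℕ, 0 < m ∧ ∃ f ∈ (m • ∑ i, n i • D i).Sec, f ≠ 0 := by
  constructor
  · intro h
    obtain ⟨c, hc⟩ := G.cover _ h
    obtain ⟨f, hf, h0⟩ := (G.free c n hc).exists_ne
    exact ⟨G.N, G.N_pos, f, G.Sec_eq hc ▸ hf, h0⟩
  · rintro ⟨m, hm, hf⟩
    rw [← sum_nsmul_smul] at hf
    obtain ⟨a, ha⟩ := G.supp _ hf
    have h := Arr.supp_smul (Arr.rl_sum_mem a) (r := (m : ℝ)⁻¹) (by positivity)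
    rwa [ha, rl_smul, smul_smul, inv_mul_cancel₀ (by positivity), one_smul] at h


theorem nonempty_C : Nonempty G.C :=
  (G.cover 0 ⟨0, le_rfl, by simp⟩).elim fun c _ => ⟨c⟩





end Geo

end Crest.Agent.X262.FG.Fan
end
end

-- ▼ part X262/FG/Arr76
section

/-!
# X262/FG/Arr76 (helper76): the fan lemma as an arrangement of hyperplanes

`ARR D`: finitely many non-zero integral forms `L`, among them those (`I0`) which cut out the
effective cone; the mobile part `M x` of `q • ∑ x i • D i` is additive on conformal points, and linear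
on the points conformal to a generic point.
-/

set_option autoImplicit false
set_option linter.unusedSectionVars false

noncomputable section

open Finset

namespace Crest.Agent.X262.FG.Fan

open Crest.Agent.X277 Crest.Agent.X277.BD Crest.Agent.X262.Cvx

variable {k F : Type*} [Field k] [Field F] [Algebra k F] {κ : Type} [Fintype κ] [DecidableEq κ]

/-- a degree as a rational point -/
def nq (n : κ → ℕ) : κ → ℚ := fun i => n i

/-- conformal points -/
def Conf (L : Finset (κ → ℤ)) (x y : κ → ℚ) : Prop := ∀ l ∈ L, 0 ≤ dot l x * dot l y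

theorem Conf.symm {L : Finset (κ → ℤ)} {x y : κ → ℚ} (h : Conf L x y) : Conf L y x :=
  fun l hl => mul_comm (dot l x) _ ▸ h l hl

theorem Conf.refl (L : Finset (κ → ℤ)) (x : κ → ℚ) : Conf L x x := fun _ _ => mul_self_nonneg _

theorem nq_add (n m : κ → ℕ) : nq (n + m) = nq n + nq m := by ext; simp [nq]



/-- the output of finite generation -/
structure ARR (D : κ → BD k F) where
  /-- the arrangement -/
  L : Finset (κ → ℤ)
  /-- the inequalities of the effective cone -/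
  I0 : Finset (κ → ℤ)
  sub : I0 ⊆ L
  ne : ∀ l ∈ L, l ≠ 0
  coord : ∀ i, Pi.single i 1 ∈ I0
  q : ℕ
  q_pos : 0 < q
  /-- the mobile part of `q • ∑ x i • D i` -/
  M : (κ → ℕ) → BD k F
  eff : ∀ x : κ → ℕ, nq x ∈ ConeH ℚ I0 ↔ ∃ m : ℕ, 0 < m ∧ ∃ f ∈ (m • ∑ i, x i • D i).Sec, f ≠ 0
  free : ∀ x, nq x ∈ ConeH ℚ I0 → Free (M x)
  le : ∀ x, nq x ∈ ConeH ℚ I0 → M x ≤ q • ∑ i, x i • D i
  Sec_le : ∀ x, nq x ∈ ConeH ℚ I0 → ∀ m : ℕ, (m • q • ∑ i, x i • D i).Sec ≤ (m • M x).Sec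
  smul : ∀ x, nq x ∈ ConeH ℚ I0 → ∀ m : ℕ, M (m • x) = m • M x
  add : ∀ x y, nq x ∈ ConeH ℚ I0 → nq y ∈ ConeH ℚ I0 → Conf L (nq x) (nq y) →
    M (x + y) = M x + M y
  lin : ∀ y ∈ ConeH ℚ I0, (∀ l ∈ L, dot l y ≠ 0) → ∃ P : κ → BD k F,
    (∀ x, Conf L (nq x) y → M x = ∑ i, x i • P i) ∧
    ∀ x, nq x ∈ ConeH ℚ I0 → M x ≤ ∑ i, x i • P i

theorem cast_dot (l : κ → ℤ) (x : κ → ℚ) : ((dot l x : ℚ) : ℝ) = ev l fun i => x i := by
  simp [dot, ev]

theorem cast_nq (n : κ → ℕ) : (fun i => ((nq n i : ℚ) : ℝ)) = rl n := by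
  ext i
  simp [nq, rl]

theorem mem_of_conf {L I0 : Finset (κ → ℤ)} (h : I0 ⊆ L) {x y : κ → ℚ} (hy : y ∈ ConeH ℚ I0)
    (hg : ∀ l ∈ L, dot l y ≠ 0) (hc : Conf L x y) : x ∈ ConeH ℚ I0 := fun l hl =>
  nonneg_of_mul_nonneg_left (hc l (h hl)) (lt_of_le_of_ne (hy l hl) (hg l (h hl)).symm)

theorem Geo.nonempty_arr {D : κ → BD k F} (G : Geo D) : Nonempty (ARR D) := by
  classical
  let z : G.J → κ → ℤ := fun j i => G.d j i
  obtain ⟨A, hA⟩ := exists_H (univ.image z)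
  have e0 : ∀ j, zc ℝ (z j) = rl (G.d j) := fun j => by
    ext i
    simp [zc, z, rl]
  have e1 : G.Supp = ConeH ℝ A := by
    rw [← hA ℝ]
    refine Set.Subset.antisymm ?_ (ConeV_subset ⟨0, le_rfl, by simp⟩
      (fun _ hx _ hy => Arr.supp_add hx hy) (fun _ hx _ hc => Arr.supp_smul hx hc) fun g hg => ?_)
    · rintro _ ⟨t, ht, rfl⟩
      exact sum_mem_ConeV _ fun j _ => smul_mem_ConeV
        (e0 j ▸ gen_mem_ConeV (mem_image_of_mem z (mem_univ j))) (ht j)
    · obtain ⟨j, -, rfl⟩ := mem_image.1 hg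
      refine ⟨Pi.single j 1, fun j' => by rw [Pi.single_apply]; split_ifs <;> simp, ?_⟩
      rw [e0, sum_eq_single j] <;> simp +contextual
  let I0 : Finset (κ → ℤ) := A.erase 0 ∪ univ.image fun i => Pi.single i 1
  let L : Finset (κ → ℤ) := I0 ∪ univ.image G.h
  have e2 : ∀ x : κ → ℚ, x ∈ ConeH ℚ I0 ↔ (fun i => (x i : ℝ)) ∈ G.Supp := fun x => by
    constructor
    · intro h
      rw [e1]
      intro a ha
      by_cases h0 : a = 0
      · simp [h0, dot]
      · have := h a (mem_union_left _ (mem_erase.2 ⟨h0, ha⟩))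
        change 0 ≤ ev a _
        rw [← cast_dot]
        exact_mod_cast this
    · intro h a ha
      rcases mem_union.1 ha with ha | ha
      · have : 0 ≤ ev a _ := (e1 ▸ h) a (mem_erase.1 ha).2
        rw [← cast_dot] at this
        exact_mod_cast this
      · obtain ⟨i, -, rfl⟩ := mem_image.1 ha
        have : (0 : ℝ) ≤ x i := Arr.supp_nonneg h i
        rw [dot_single]
        simpa using this
  have e3 : ∀ x : κ → ℕ, nq x ∈ ConeH ℚ I0 ↔ rl x ∈ G.Supp := fun x => by rw [e2, cast_nq]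
  have e4 : ∀ {x y : κ → ℚ}, Conf L x y → ∀ l,
      0 ≤ ev (G.h l) (fun i => x i) * ev (G.h l) fun i => y i := fun h l => by
    have := h _ (mem_union_right _ (mem_image_of_mem G.h (mem_univ l)))
    rw [← cast_dot, ← cast_dot]
    exact_mod_cast this
  have := G.nonempty_C
  let ch : (κ → ℕ) → G.C := fun x => Classical.epsilon fun c => rl x ∈ G.Ch c
  have hch : ∀ x, nq x ∈ ConeH ℚ I0 → rl x ∈ G.Ch (ch x) := fun x hx =>
    Classical.epsilon_spec (G.cover _ ((e3 x).1 hx))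
  have hM : ∀ x c, rl x ∈ G.Ch c → ∑ i, x i • G.P (ch x) i = ∑ i, x i • G.P c i := fun x c hx =>
    G.P_eq (hch x ((e3 x).2 (G.sub c hx))) hx
  refine ⟨{
    L := L
    I0 := I0
    sub := subset_union_left
    ne := fun l hl => ?_
    coord := fun i => mem_union_right _ (mem_image_of_mem _ (mem_univ i))
    q := G.N
    q_pos := G.N_pos
    M := fun x => ∑ i, x i • G.P (ch x) i
    eff := fun x => (e3 x).trans G.mem_supp_iff
    free := fun x hx => G.free _ x (hch x hx)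
    le := fun x hx => G.le _ x (hch x hx)
    Sec_le := fun x hx m => (G.Sec_nsmul (hch x hx) m).ge
    smul := fun x hx m => ?_
    add := fun x y hx hy h => ?_
    lin := fun y hy hg => ?_ }⟩
  · rcases mem_union.1 hl with hl | hl
    · rcases mem_union.1 hl with hl | hl
      · exact (mem_erase.1 hl).1
      · obtain ⟨i, -, rfl⟩ := mem_image.1 hl
        exact fun h => by simpa using congrFun h i
    · obtain ⟨l, -, rfl⟩ := mem_image.1 hl
      obtain ⟨c⟩ := this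
      exact fun h => G.gen c l (by simp [h, ev])
  · rw [hM _ (ch x) (rl_smul m x ▸ Arr.ch_smul (hch x hx) (Nat.cast_nonneg m)), sum_nsmul_smul]
  · have hxy : nq (x + y) ∈ ConeH ℚ I0 := nq_add x y ▸ add_mem_ConeH hx hy
    have h1 := hch _ hxy
    have key : ∀ {u v : κ → ℕ}, nq u ∈ ConeH ℚ I0 → Conf L (nq u) (nq v) → ∀ c,
        rl (u + v) ∈ G.Ch c → rl u ∈ G.Ch c := fun {u v} hu h c hc => by
      refine ⟨Arr.supp_sp ((e3 u).1 hu), fun l => ?_⟩
      have h2 := hc.2 l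
      have h3 := e4 h l
      rw [cast_nq, cast_nq] at h3
      rw [rl_add, ev_add] at h2
      by_contra h4
      have h5 : ev (G.h l) (rl u) ≠ 0 := fun e => h4 (by simp [e])
      nlinarith [mul_self_pos.2 h5, mul_self_pos.2 (G.gen c l), mul_nonneg h3
        (mul_self_nonneg (ev (G.h l) (rl (G.pt c))))]
    rw [hM x _ (key hx h _ h1), hM y _ (key hy h.symm (ch (x + y)) (by rwa [add_comm y x])),
      ← sum_add_distrib]
    exact sum_congr rfl fun i _ => add_smul _ _ _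
  · obtain ⟨c, hc⟩ := G.cover _ ((e2 y).1 hy)
    refine ⟨G.P c, fun x hx => hM x c ⟨Arr.supp_sp ((e3 x).1
      (mem_of_conf subset_union_left hy hg hx)), fun l => ?_⟩, fun x hx => G.P_le (hch x hx) c⟩
    have h2 := hc.2 l
    have h3 := e4 hx l
    rw [cast_nq] at h3
    have h5 : ev (G.h l) (fun i => y i) ≠ 0 := by
      rw [← cast_dot]
      exact_mod_cast hg _ (mem_union_right _ (mem_image_of_mem G.h (mem_univ l)))
    by_contra h4
    nlinarith [mul_self_pos.2 h5, mul_nonneg h2 h3]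

/-- **finite generation gives the arrangement** -/
theorem nonempty_arr {D : κ → BD k F} (hD : Gr.FG (fun n : κ → ℕ => (∑ i, n i • D i).Sec) ⊤) :
    Nonempty (ARR D) :=
  (nonempty_geo hD).elim fun G => G.nonempty_arr

namespace ARR

variable {D : κ → BD k F} (R : ARR D) {x y : κ → ℕ}





end ARR

end Crest.Agent.X262.FG.Fan
end
end

-- ▼ part X262/FG/ArrOut76
section

/-!
# X262/FG/ArrOut76 (helper76): finite generation gives `Sark.ArrOut`
-/

set_option autoImplicit false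

noncomputable section

open Finset

namespace Crest.Agent.X262.FG.Fan

open Crest.Agent.X277 Crest.Agent.X277.BD Crest.Agent.X262.Cvx Crest.Agent.X262.Sark

variable {K : Type} [Field K] [Algebra ℂ K] {κ : Type} [Fintype κ]

/-- **the arrangement of a finitely generated family** -/
theorem arrOut_of_fg (D₀ : κ → BD ℂ K) (D : (κ → ℤ) →+ BD ℂ K) (hD : ∀ x, D x = ∑ i, x i • D₀ i)
    (h : Gr.FG (fun n : κ → ℕ => (∑ i, n i • D₀ i).Sec) ⊤) : ArrOut D := by
  classical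
  obtain ⟨R⟩ := nonempty_arr h
  let e := R.L.equivFin
  let lin : (κ → ℤ) → (κ → ℤ) →+ ℤ := fun a =>
    AddMonoidHom.mk' (fun x => ∑ i, a i * x i) fun x y => by simp [mul_add, sum_add_distrib]
  let tn : (κ → ℤ) → κ → ℕ := fun x i => (x i).toNat
  have e1 : ∀ x, Ps x → ∀ i, (tn x i : ℤ) = x i := fun x hx i => Int.toNat_of_nonneg (hx i).le
  have e2 : ∀ x, Ps x → D x = ∑ i, tn x i • D₀ i := fun x hx => by
    rw [hD]
    exact sum_congr rfl fun i _ => by rw [← e1 x hx i, natCast_zsmul]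
  have e3 : ∀ x, Ps x → ∀ a, dot a (nq (tn x)) = (lin a x : ℤ) := fun x hx a => by
    change _ = ((∑ i, a i * x i : ℤ) : ℚ)
    push_cast
    refine sum_congr rfl fun i _ => ?_
    rw [← e1 x hx i, Int.cast_natCast]
    rfl
  have e4 : ∀ x, Ps x → ((∃ m : ℕ, 0 < m ∧ Eff (m • D x)) ↔ nq (tn x) ∈ ConeH ℚ R.I0) :=
    fun x hx => by
      rw [R.eff, e2 x hx]
      rfl
  have e5 : ∀ a ∈ R.L, ∃ i, (e.symm i : κ → ℤ) = a := fun a ha => ⟨e ⟨a, ha⟩, by simp⟩
  refine ⟨_, fun i => lin (e.symm i), R.q, fun x => R.M (tn x), R.q_pos, fun x hx h1 => ?_,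
    fun x y hx hy h1 h2 => ?_, fun x y hx hy h1 h2 h3 => ?_⟩
  · rw [e4 x hx] at h1
    rw [e2 x hx]
    exact ⟨R.free _ h1, R.le _ h1, R.Sec_le _ h1⟩
  · rw [e4 _ hy] at h1
    rw [e4 _ hx]
    intro a ha
    obtain ⟨i, rfl⟩ := e5 a (R.sub ha)
    have h3 := h1 _ ha
    rw [e3 _ hy] at h3
    rw [e3 _ hx]
    have h4 : 0 ≤ lin (e.symm i) y := by exact_mod_cast h3
    have h5 : 0 ≤ lin (e.symm i) x := by
      rcases h2 i with h6 | h6
      · exact h6.ge
      · exact (pos_of_mul_pos_left h6 h4).le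
    exact_mod_cast h5
  · have h4 : tn (x + y) = tn x + tn y :=
      funext fun i => Int.toNat_add (hx i).le (hy i).le
    change R.M (tn (x + y)) = _
    rw [h4]
    refine R.add _ _ ((e4 x hx).1 h1) ((e4 y hy).1 h2) fun a ha => ?_
    obtain ⟨i, rfl⟩ := e5 a ha
    rw [e3 _ hx, e3 _ hy]
    exact_mod_cast h3 i

end Crest.Agent.X262.FG.Fan
end
end

-- ▼ part X262/Sark46/Setup
section

/-!
# Row 262, SARK (helper46): the geography of two Fano models, `setup_of`
-/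

set_option autoImplicit false

open Filter
open scoped KaehlerDifferential

noncomputable section

namespace Crest.Agent.X262.Sark46

open Crest.Agent.X277 Crest.Agent.X277.Lef Crest.Agent.X277.BD Crest.Agent.X277.Pst
open Crest.Agent.X277.BD.Br (On oP kP)
open Crest.Agent.X262.Mod Crest.Agent.X262.Geo Crest.Agent.X262.Sark Crest.Agent.X262.FG

variable {K : Type} [Field K] [Algebra ℂ K] {n : ℕ} {W : PModel ℂ K}

/-- the class of an integral point -/
def hom {κ : Type} [Fintype κ] (D : κ → BD ℂ K) : (κ → ℤ) →+ BD ℂ K :=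
  AddMonoidHom.mk' (fun x => ∑ k, x k • D k) fun x y => by
    simp only [Pi.add_apply, add_smul, Finset.sum_add_distrib]

theorem hom_single {κ : Type} [Fintype κ] [DecidableEq κ] (D : κ → BD ℂ K) (k : κ) :
    hom D (Pi.single k 1) = D k := by
  change ∑ j, (Pi.single k 1 : κ → ℤ) j • D j = _
  rw [Finset.sum_eq_single k] <;> simp +contextual

/-- a geography with prescribed adjoint classes in the open orthant -/
theorem exists_gm (hA : AStmt n) (b : Module.Basis (Fin n) K Ω[K⁄ℂ]) {ι : Type} [Fintype ι]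
    {g : ι → BD ℂ K} (hg : ∀ i, g i ∈ On W) (gen : ∀ a ∈ On W, ∃ m : ℕ, 0 < m ∧
      ∃ (c : ι → ℤ) (f : K), m • a = ∑ i, c i • g i + pr ℂ f)
    {r : ℕ} (hr : 0 < r) (h : Fin 3 → BD ℂ K) (hh : ∀ s, Amp W (h s)) :
    ∃ G : Gm b, G.W = W ∧ ∀ s, ∃ (e o : G.κ → ℤ) (M : ℕ), 0 < M ∧ (∀ m : ℕ, Ps (m • e + o)) ∧
      G.D e = M • (r • kP W b + h s) := by
  classical
  have := eft W
  obtain ⟨M, M0, hM⟩ : ∃ M : ℕ, 0 < M ∧ ∀ i, Amp W (M • h 0 + g i) :=
    ((eventually_gt_atTop 0).and (eventually_all.2 fun i =>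
      eventually_atTop.2 ((hh 0).exists_amp (hg i)))).exists
  let S : Sys (bd0 W b) (Fin 3 ⊕ ι) := ⟨M * r, mul_pos M0 hr,
    Sum.elim (fun s => M • h s) fun i => M • h 0 + g i,
    fun k => k.rec (fun s => (hh s).nsmul M0) hM, 0, fun _ _ => le_rfl, fun _ e => e.elim⟩
  have hD : ∀ k, S.D b k = (M * r) • kP W b + S.A k := fun k => by
    change _ + dvs _ 0 = _
    rw [dvs_zero, add_zero]
  obtain ⟨N, l, c, Q, c0, h1, h2, h3⟩ :=
    Fan.arrOut_of_fg (S.D b) (hom (S.D b)) (fun _ => rfl) (hA K W _ b _ S)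
  have mem : ∀ x, hom (S.D b) x ∈ On W := fun x =>
    sum_mem fun k _ => zsmul_mem (S.D_mem b k) _
  have sp : ∀ a ∈ On W, ∃ m : ℕ, 0 < m ∧ ∃ x f, m • a = hom (S.D b) x + pr ℂ f := fun a ha => by
    obtain ⟨m, hm, c, f, e⟩ := gen a ha
    refine ⟨m, hm, ∑ i, c i • (Pi.single (.inr i) 1 - Pi.single (.inl 0) 1), f, ?_⟩
    rw [e, map_sum]
    congr 1
    refine Finset.sum_congr rfl fun i _ => ?_
    rw [map_zsmul, map_sub, hom_single, hom_single, hD, hD]
    exact congrArg _ (by simp [S])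
  obtain ⟨mK, mK0, kk, fk, hk⟩ := sp _ (Br.kP_mem b)
  refine ⟨⟨W, isMod_oP W, Fin 3 ⊕ ι, hom (S.D b), fun x => car_of_On (mem x), fun a => ?_,
    fun V hV => ?_, kk, mK, mK0, fk⁻¹, by rw [hk, pr_inv, add_neg_cancel_right], fun x hx => ?_,
    fun W' V h h' => (Sark27.canStmt K n b W W' V h).1 h',
    fun W' V h h' => (Sark27.canStmt K n b W W' V h).2 h', N, l, c, c0, Q, h1, h2, h3⟩, rfl,
    fun s => ⟨Pi.single (.inl s) 1, 1, M, M0, fun m k => ?_, ?_⟩⟩
  · obtain ⟨m, hm, x, f, e⟩ := sp _ (tr_mem (P := W) a)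
    exact ⟨m, hm, x, f, e ▸ EqOn.nsmul (eqOn_iff.2 fun V hV => (od_tr hV a).symm) m⟩
  · obtain ⟨m, hm, x, f, e⟩ := sp _ (dv_mem (P := W) V)
    refine ⟨x, f, ?_, fun V' h4 h5 => ?_⟩ <;> rw [← e, val_nsmul]
    · exact one_lt_pow₀ (one_lt_val_dv_self hV) hm.ne'
    · rw [val_dv_ne h4 h5, one_pow]
  · lift x to Fin 3 ⊕ ι → ℕ using fun k => (hx k).le
    have h4 : x ≠ 0 := fun h => by simpa [h] using hx (.inl 0)
    obtain ⟨h5, q, h6, h7⟩ := Amp.lc S.amp h4
    refine ⟨(∑ k, x k) * (M * r), q, lc S.A x, mul_pos (Finset.sum_pos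
      (fun k _ => Nat.cast_pos.1 (hx k)) ⟨.inl 0, Finset.mem_univ _⟩) (mul_pos M0 hr), h6, ?_,
      car_of_On h5, h7⟩
    change ∑ k, (x k : ℤ) • S.D b k = _
    simp only [natCast_zsmul, hD, smul_add, Finset.sum_add_distrib, ← Finset.sum_smul, mul_smul, lc]
  · have h4 : (0 : ℤ) ≤ (Pi.single (.inl s) 1 : Fin 3 ⊕ ι → ℤ) k := by
      rw [Pi.single_apply]
      split_ifs <;> simp
    exact add_pos_of_nonneg_of_pos (nsmul_nonneg h4 m) one_pos
  · change hom (S.D b) _ = _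
    rw [hom_single, hD, smul_add, mul_smul]
    rfl

/-- **the geography of two Fano models** -/
theorem setup_of (hA : AStmt (n + 1)) : SetupStmt n := by
  classical
  intro K _ _ b P X hP hX
  have := eft P
  have h0 := not_big_zero b P
  obtain ⟨W, hW⟩ := Unf.exists_on ({oP P, oP X} : Finset (BD ℂ K))
  have WP : oP P ∈ On W := hW _ (by simp)
  have WX : oP X ∈ On W := hW _ (by simp)
  obtain ⟨ι, _, g, hg, gn⟩ := gen hP WP
  obtain ⟨r, r0, h1, h2, h3⟩ := ((eventually_gt_atTop 0).and (((qb_kP (b := b) WP).ev (oP W)).and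
    (((qb_kP (b := b) WX).ev (oP W)).and ((ng_kP hP WP).ev (oP W))))).exists
  have big : ∀ Y : PModel ℂ K, ∃ N : ℕ, Big (r • kP W b + (oP W + N • oP Y)) := fun Y => by
    obtain ⟨N, hN⟩ := (big_oP Y).exists_sub (-(r • kP W b + oP W))
    exact ⟨N, by simpa only [sub_neg_eq_add, add_comm (N • oP Y), add_assoc] using hN N le_rfl⟩
  choose N hN using big
  have amp : ∀ Y : PModel ℂ K, oP Y ∈ On W → Amp W (oP W + N Y • oP Y) := fun Y h =>
    (amp_oP W).add_free (nsmul_mem h _) (Br.free_oP.nsmul _)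
  obtain ⟨G, rfl, hG⟩ := exists_gm hA b hg gn r0 ![oP W, oP W + N P • oP P, oP W + N X • oP X]
    (Fin.forall_fin_succ.2 ⟨amp_oP W, Fin.forall_fin_two.2 ⟨amp P WP, amp X WX⟩⟩)
  have eD : ∀ {e o : G.κ → ℤ} {M : ℕ} {a : BD ℂ K}, G.D e = M • a → ∀ m : ℕ,
      G.D (m • e + o) = (m * M) • a + G.D o := fun h m => by rw [map_add, map_nsmul, h, mul_smul]
  have td : ∀ {M : ℕ}, 0 < M → Tendsto (· * M) atTop atTop := fun h =>
    tendsto_id.atTop_mul_const' h
  have opn : ∀ Y : PModel ℂ K, Sark.Opn {x | QB Y G.W (G.D x)} := fun Y =>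
    ⟨fun x hx y hy => by simpa using QB.add hx hy, fun x hx y => by
      simpa only [Set.mem_ofPred_eq, map_add, map_nsmul] using QB.ev hx (G.D y)⟩
  have ends : ∀ (Y : PModel ℂ K) {e o : G.κ → ℤ} {M : ℕ}, 0 < M → QB Y G.W (r • kP G.W b + oP G.W) →
      G.D e = M • (r • kP G.W b + (oP G.W + N Y • oP Y)) →
      ∃ m : ℕ, Big (G.D (m • e + o)) ∧ QB Y G.W (G.D (m • e + o)) := fun Y e o M M0 h4 h5 => by
    obtain ⟨s, hs⟩ := (hN Y).exists_sub (-G.D o)
    obtain ⟨m, h6, h7⟩ := ((td M0).eventually ((eventually_ge_atTop s).and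
      ((h4.add_on (nsmul_mem Br.oP_mem (N Y))).ev (G.D o)))).exists
    exact ⟨m, by simpa only [eD h5, sub_neg_eq_add] using hs _ h6,
      by simpa only [eD h5, add_assoc] using h7⟩
  obtain ⟨e, o, M, M0, h4, h5⟩ := hG 0
  obtain ⟨e₁, o₁, M₁, M1, h6, h7⟩ := hG 1
  obtain ⟨e₂, o₂, M₂, M2, h8, h9⟩ := hG 2
  obtain ⟨m, h10, h11, h12⟩ := ((td M0).eventually ((h1.ev (G.D o)).and ((h2.ev (G.D o)).and
    (h3.ev (G.D o))))).exists
  obtain ⟨m₁, h13, h14⟩ := ends P (o := o₁) M1 h1 h7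
  obtain ⟨m₂, h15, h16⟩ := ends X (o := o₂) M2 h2 h9
  have mem : ∀ y, G.D y ∈ On G.W := fun y => car_iff_On.1 (G.car y)
  refine ⟨G, _, _, m • e + o, _, _, opn P, opn X, h4 m, h6 m₁, h8 m₂, fun y => ?_, h13, h15,
    show QB _ _ _ from (eD h5 m).symm ▸ h10, show QB _ _ _ from (eD h5 m).symm ▸ h11, h14, h16,
    fun y hy py hb => QB.sameP h0 hP WP (mem y) hy hb G.c_pos (G.pos y py hb.exists_eff),
    fun y hy py hb => QB.sameP h0 hX WX (mem y) hy hb G.c_pos (G.pos y py hb.exists_eff)⟩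
  filter_upwards [h12.ev (G.D y)] with j hj ⟨i, hi, h17⟩
  refine hj.not_eff h0 hi ?_
  rwa [map_add, map_nsmul, eD h5] at h17

end Crest.Agent.X262.Sark46
end
end

-- ▼ part X262/Mod79/Facet

/-!
# Row 262, SARK (helper79): Mori fibre spaces at the boundary (`FacetStmt`, `MissStmt`)
-/

set_option autoImplicit false
set_option linter.style.haveILetI false

open Filter
open scoped KaehlerDifferential

noncomputable section

namespace Crest.Agent.X262.Sark

open Crest.Agent.X277 Crest.Agent.X277.Lef Crest.Agent.X277.BD Crest.Agent.X277.Pst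
open Crest.Agent.X277.BD.Br (On oP kP)
open Crest.Agent.X262.Mod

variable {K : Type} [Field K] [Algebra ℂ K] {n : ℕ} {b : Module.Basis (Fin n) K Ω[K⁄ℂ]}

theorem big_of_car {A a : BD ℂ K} (h : Car A a) (hb : Big a) : Big A := by
  obtain ⟨c, -, h1⟩ := h
  have h2 := hb.add_eff h1.eff
  rw [add_sub_cancel] at h2
  rcases Nat.eq_zero_or_pos c with rfl | hc
  · obtain ⟨q, -, h3⟩ := h2 (-A)
    simpa using h2.add_eff h3
  · exact h2.of_nsmul hc

theorem car_natAbs {A a : BD ℂ K} {s : ℤ} (h : Car A (s • a)) : Car A (s.natAbs • a) := by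
  rcases Int.natAbs_eq s with h1 | h1
  · rwa [h1, natCast_zsmul] at h
  · rw [h1, neg_smul, natCast_zsmul] at h
    simpa using h.neg

theorem car_of_nsmul {A a : BD ℂ K} (hA : A.Free) (ha : a.Free) {m : ℕ} (hm : 0 < m)
    (h : Car A (m • a)) : Car A a := by
  obtain ⟨c, -, h2⟩ := h
  obtain ⟨m, rfl⟩ := Nat.exists_eq_succ_of_ne_zero hm.ne'
  refine car_of_free hA ha (n := c) ?_
  convert h2.add (ha.nsmul m) using 1
  rw [succ_nsmul]
  abel

/-- a terminal model of relative Picard number at most one with relatively big `-K` -/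
theorem exists_mfs (Y : TM b) {A : BD ℂ K} (hA : A.Free) (hc : Car Y.H A) (hb : ¬ Big A)
    (h1 : ∀ a a', Car Y.H a → Car Y.H a' → ∃ s t : ℤ, (s ≠ 0 ∨ t ≠ 0) ∧ Car A (s • a + t • a'))
    (h2 : ∃ (t : ℕ) (β : BD ℂ K), 0 < t ∧ Big β ∧ Car A (β + t • Y.κ)) :
    ∃ Z : MFS b, Z.toTM = Y ∧ Z.A = A := by
  obtain ⟨t, β, ht, h3, h4⟩ := h2
  have rho : ∀ a, Car Y.H a → ∃ m : ℕ, 0 < m ∧ ∃ c : ℤ, Car A (m • a - c • Y.κ) := by
    intro a ha
    obtain ⟨s, u, h5, h6⟩ := h1 a Y.κ ha Y.car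
    rcases lt_trichotomy s 0 with hs | rfl | hs
    · refine ⟨s.natAbs, Int.natAbs_pos.2 hs.ne, u, ?_⟩
      convert h6.neg using 1
      rw [← natCast_zsmul, Int.ofNat_natAbs_of_nonpos hs.le]
      module
    · have hu : 0 < u.natAbs := Int.natAbs_pos.2 (h5.resolve_left fun h => h rfl)
      rw [zero_smul, zero_add] at h6
      refine absurd (big_of_car ?_ (h3.nsmul hu)) hb
      convert (h4.nsmul u.natAbs).sub ((car_natAbs h6).nsmul t) using 1
      module
    · refine ⟨s.natAbs, Int.natAbs_pos.2 hs.ne', -u, ?_⟩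
      convert h6 using 1
      rw [← natCast_zsmul, Int.natAbs_of_nonneg hs.le]
      module
  refine ⟨⟨Y, A, hA, hc, hb, ?_, rho⟩, rfl, rfl⟩
  obtain ⟨m, hm, c, h5⟩ := rho Y.H (car_self Y.mod.free)
  rcases lt_or_ge c 0 with h6 | h6
  · obtain ⟨l, -, h7⟩ := h5
    obtain ⟨m, rfl⟩ := Nat.exists_eq_succ_of_ne_zero hm.ne'
    refine ⟨c.natAbs, l, Int.natAbs_pos.2 h6.ne, ?_⟩
    convert h7.add (Y.mod.free.nsmul m) using 1
    rw [← natCast_zsmul Y.κ, Int.ofNat_natAbs_of_nonpos h6.le, succ_nsmul]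
    module
  · lift c to ℕ using h6
    refine absurd (big_of_car ?_ (((Y.mod.big.nsmul hm).nsmul ht).add_psef (h3.psef.nsmul c))) hb
    convert (h5.nsmul t).add (h4.nsmul c) using 1
    module

theorem cross_zero {κ : Type} (β : (κ → ℤ) →+ ℤ) (z z' : κ → ℤ) :
    β (β z' • z - β z • z') = 0 := by
  rw [map_sub, map_zsmul, map_zsmul, smul_eq_mul, smul_eq_mul, mul_comm, sub_self]

/-- two forms and a vector -/
theorem exists_det {κ : Type} (α : Fin 2 → (κ → ℤ) →+ ℤ) {e : κ → ℤ} (he : ¬ ∀ j, α j e = 0) :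
    ∃ β : (κ → ℤ) →+ ℤ, β e = 0 ∧ (∀ z, (∀ j, α j z = 0) → β z = 0) ∧ ∀ z, β z = 0 →
      ∃ m : ℕ, 0 < m ∧ ∃ u : ℤ, ∀ j, α j (m • z - u • e) = 0 := by
  refine ⟨α 1 e • α 0 - α 0 e • α 1, by simp [mul_comm], fun z hz => by simp [hz], fun z hz => ?_⟩
  have h1 : α 1 e * α 0 z - α 0 e * α 1 z = 0 := by simpa using hz
  have h2 : 0 < α 0 e * α 0 e + α 1 e * α 1 e := by
    rw [Fin.forall_fin_two, not_and_or] at he
    rcases he with h | h
    · exact add_pos_of_pos_of_nonneg (mul_self_pos.2 h) (mul_self_nonneg _)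
    · exact add_pos_of_nonneg_of_pos (mul_self_nonneg _) (mul_self_pos.2 h)
  refine ⟨_, Int.natAbs_pos.2 h2.ne', α 0 z * α 0 e + α 1 z * α 1 e, fun j => ?_⟩
  rw [map_sub, map_nsmul, map_zsmul, nsmul_eq_mul, Int.natAbs_of_nonneg h2.le, smul_eq_mul]
  fin_cases j
  · change _ * α 0 z - _ * α 0 e = 0
    linear_combination α 1 e * h1
  · change _ * α 1 z - _ * α 1 e = 0
    linear_combination (-α 0 e) * h1

namespace Gm

variable {G : Gm b} {x y z w : G.κ → ℤ} {V E : RZ ℂ K}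


namespace Cell

variable (C : G.Cell y)

theorem pi_self (hy : G.Ch y) : C.pi y = G.P y := C.face y hy.1 Face.rfl

theorem flat (hx : G.Ef x) (h : Face G.l x y) (hz : ∀ i, G.l i x = 0 → G.l i z = 0) :
    ∃ m : ℕ, (m • G.P x + C.pi z).Free ∧ m • G.P x + C.pi z ≤ m • G.c • G.D x + G.c • G.D z := by
  obtain ⟨m, h1, h2, -⟩ := (hx.ev_flat hz).exists
  have h3 := C.face _ h1 (h2.trans h)
  rw [map_add, map_nsmul, C.face x hx h] at h3
  refine ⟨m, h3 ▸ h1.free, h3 ▸ h1.le.trans_eq ?_⟩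
  rw [map_add, map_nsmul, smul_add, smul_comm]

/-- on the flat of a face the pull-back is Cartier on the model of the face -/
theorem car_flat (hx : G.Ef x) (h : Face G.l x y) (hz : ∀ i, G.l i x = 0 → G.l i z = 0) :
    Car (G.P x) (C.pi z) := by
  obtain ⟨m, h1, -⟩ := C.flat hx h hz
  obtain ⟨m', h2, -⟩ := C.flat hx h (z := -z) fun i hi => by rw [map_neg, hz i hi, neg_zero]
  exact car_of hx.free h1 (by rwa [map_neg, ← sub_eq_add_neg] at h2)

theorem le_flat (hx : G.Ef x) (h : Face G.l x y) (hz : ∀ i, G.l i x = 0 → G.l i z = 0)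
    (hV : G.Pr x V) : (C.pi z).val V ≤ (G.c • G.D z).val V := by
  obtain ⟨m, -, h1⟩ := C.flat hx h hz
  have h2 := h1 V
  rw [val_add, val_add, val_nsmul m, val_nsmul m, hV.2] at h2
  exact le_of_mul_le_mul_left h2 (pow_pos (val_pos _ _) m)

theorem eq_flat (hx : G.Ef x) (h : Face G.l x y) (hz : ∀ i, G.l i x = 0 → G.l i z = 0)
    (hV : G.Pr x V) : (C.pi z).val V = (G.c • G.D z).val V := by
  refine (C.le_flat hx h hz hV).antisymm ?_
  have h1 := C.le_flat hx h (z := -z) (fun i hi => by rw [map_neg, hz i hi, neg_zero]) hV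
  rwa [map_neg, map_neg, smul_neg, val_neg, val_neg, inv_le_inv₀ (val_pos _ _) (val_pos _ _)] at h1

/-- the pull-back of an exceptional prime is zero -/
theorem exc (hy : G.Ch y) (hE : ¬ Prm (G.P y) E) {f : K}
    (h : ∀ V, Prm (oP G.W) V → V ≠ E → (G.D z + pr ℂ f).val V = 1) :
    C.pi z + G.c • pr ℂ f = 0 :=
  haveI := G.essFT
  ((C.car z).add ((car_pr f).nsmul _)).eq (hy.1.isMod hy.big) Car.zero fun U hU => by
    rw [val_add, C.eqOn z U hU, ← val_add, ← smul_add, val_nsmul,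
      h U (hy.1.prm hy.big hU) (fun h => hE (h ▸ hU)), one_pow, val_zero]

/-- every Cartier divisor of the model is a pull-back -/
theorem surj (hy : G.Ch y) {a : BD ℂ K} (ha : Car (G.P y) a) :
    ∃ m : ℕ, 0 < m ∧ ∃ z f, m • a = C.pi z + G.c • pr ℂ f := by
  haveI := G.essFT
  obtain ⟨m, h1, z, f, h2⟩ := G.span a
  refine ⟨G.c * m, mul_pos G.c_pos h1, z, f, (ha.nsmul _).eq (hy.1.isMod hy.big)
    ((C.car z).add ((car_pr f).nsmul _)) fun V hV => ?_⟩
  rw [val_add, C.eqOn z V hV, ← val_add, ← smul_add, mul_smul, val_nsmul, val_nsmul G.c,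
    h2 V (hy.1.prm hy.big hV)]

/-- `-K` is big over the model of a face -/
theorem anti_big (hy : G.Ch y) (hx : G.Ef x) (h : Face G.l x y) :
    ∃ (t : ℕ) (β : BD ℂ K), 0 < t ∧ Big β ∧ Car (G.P x) (β + t • C.T.κ) := by
  haveI := G.essFT
  obtain ⟨t, q, a, h1, h2, h3, -, h5⟩ := G.adj x hx.1
  have h6 : Nef a := nef_of_semiample h2 (by simpa using h5.add G.mod.free)
  have h6' : Big a := big_of_eff_sub G.mod.big h2 h5.eff
  have h7 : G.D (G.mK • x - t • G.kk) = G.mK • a - t • pr ℂ G.fk := by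
    rw [map_sub, map_nsmul, map_nsmul, h3, G.D_kk]
    module
  have h8 : Nef (G.c • G.D (G.mK • x - t • G.kk)) := by
    rw [h7, sub_eq_add_neg, ← smul_neg]
    exact ((h6.nsmul _).add ((free_neg_pr _).nef.nsmul t)).nsmul _
  have h9 := (C.car _).le_of_nef (hy.1.isMod hy.big) h8 (C.eqOn _).ge
  refine ⟨t, C.pi (G.mK • x - t • G.kk), h1, Big.mono ?_ h9, ?_⟩
  · rw [h7, sub_eq_add_neg, ← smul_neg]
    exact ((h6'.nsmul G.mK_pos).add_eff ((free_neg_pr _).nsmul t).eff).nsmul G.c_pos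
  · convert ((car_self hx.free).nsmul G.mK).sub (((car_pr G.fk).nsmul G.c).nsmul t) using 1
    rw [map_sub, map_nsmul, map_nsmul, C.face x hx h, C.T_κ]
    module

theorem rank_one {A : BD ℂ K} (β : (G.κ → ℤ) →+ ℤ)
    (h : ∀ z, β z = 0 → ∃ m : ℕ, 0 < m ∧ Car A (m • C.pi z)) (z z' : G.κ → ℤ) :
    ∃ s t : ℤ, (s ≠ 0 ∨ t ≠ 0) ∧ Car A (s • C.pi z + t • C.pi z') := by
  by_cases h0 : β z = 0
  · obtain ⟨m, h1, h2⟩ := h z h0
    exact ⟨m, 0, Or.inl (Int.natCast_pos.2 h1).ne', by simpa using h2⟩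
  · obtain ⟨m, h1, h2⟩ := h (β z' • z - β z • z') (cross_zero β z z')
    refine ⟨m * β z', -(m * β z), Or.inr (neg_ne_zero.2 (mul_ne_zero
      (Int.natCast_pos.2 h1).ne' h0)), ?_⟩
    convert h2 using 1
    rw [map_sub, map_zsmul, map_zsmul]
    module

theorem mfs (hy : G.Ch y) (hx : G.Ef x) (h : Face G.l x y) (hb : Bdy G.S x)
    (β : (G.κ → ℤ) →+ ℤ) (h1 : ∀ z, β z = 0 → ∃ m : ℕ, 0 < m ∧ Car (G.P x) (m • C.pi z)) :
    ∃ Y : MFS b, Y.toTM = C.T ∧ Y.A = G.P x := by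
  refine exists_mfs C.T hx.free (C.T_H ▸ car_face hx hy.1 h)
    (fun h2 => bdy_iff.1 hb (hx.big_iff.1 h2)) (fun a a' ha ha' => ?_) (C.anti_big hy hx h)
  rw [C.T_H] at ha ha'
  obtain ⟨m, h2, z, f, h3⟩ := C.surj hy ha
  obtain ⟨m', h4, z', f', h5⟩ := C.surj hy ha'
  obtain ⟨s, t, h6, h7⟩ := C.rank_one β h1 z z'
  refine ⟨s * m, t * m', h6.imp (mul_ne_zero · (Int.natCast_pos.2 h2).ne')
    (mul_ne_zero · (Int.natCast_pos.2 h4).ne'), ?_⟩
  convert h7.add ((((car_pr f).nsmul G.c).zsmul s).add (((car_pr f').nsmul G.c).zsmul t)) using 1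
  rw [mul_smul, mul_smul, natCast_zsmul, natCast_zsmul, h3, h5]
  module

end Cell

end Gm

/-- the two sides of a cell of codimension one -/
theorem face_of_side {κ : Type} {N : ℕ} {l : Fin N → (κ → ℤ) →+ ℤ} {x y u : κ → ℤ}
    {α : (κ → ℤ) →+ ℤ} (hα : ∀ i, l i x = 0 → ∀ z, α z = 0 → l i z = 0) (hy : Face l x y)
    (hc : Cham l y) (hu : Face l x u) (h : α u = 0 ∨ 0 < α u * α y) : Face l u y := by
  intro i
  rcases hy i with h1 | h1
  · rcases h with h | h
    · exact Or.inl (hα i h1 u h)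
    by_cases h0 : l i = 0
    · simp [h0]
    have h2 := hα i h1 (α y • u - α u • y) (cross_zero α u y)
    rw [map_sub, map_zsmul, map_zsmul, smul_eq_mul, smul_eq_mul, sub_eq_zero] at h2
    have h3 := mul_pos h (mul_self_pos.2 (hc i h0))
    have h4 : α u * α y * (l i y * l i y) = α y * α y * (l i u * l i y) := by
      linear_combination (-(α y * l i y)) * h2
    rw [h4] at h3
    exact Or.inr (pos_of_mul_pos_right h3 (mul_self_nonneg _))
  · rcases hu i with h2 | h2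
    · simp [h2] at h1
    · refine Or.inr (not_le.1 fun h3 => ?_)
      nlinarith [mul_pos h1 h2, mul_nonneg (neg_nonneg.2 h3) (mul_self_nonneg (l i x))]

/-- **FACET** -/
theorem facetStmt : FacetStmt := by
  intro K _ _ n b G x y C hx hy h
  obtain ⟨h1, h2, h3, α, -, h4⟩ := hx
  have h5 : ∀ i, G.l i x = 0 → ∀ z, α 0 z = 0 → G.l i z = 0 := fun i hi z hz =>
    h4 i hi z fun j => Subsingleton.elim 0 j ▸ hz
  refine ⟨fun y' hy' h' => ?_, C.mfs hy ⟨h1, h2⟩ h h3 (α 0) fun z hz =>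
    ⟨1, one_pos, by simpa using C.car_flat ⟨h1, h2⟩ h fun i hi => h5 i hi z hz⟩⟩
  refine face_of_side h5 h' hy'.2 h ?_
  by_contra hc
  push Not at hc
  obtain ⟨z, hz⟩ := h3
  obtain ⟨m, h6, h7⟩ := ((h1.ev z).and (face_ev (l := G.l) x z)).exists
  have h8 : ¬ (α 0 (m • x + z) = 0 ∨ 0 < α 0 (m • x + z) * α 0 y) := fun h8 =>
    hz m (hy.1.of_face h6 (face_of_side h5 h hy.2 h7 h8)).2
  have h9 : ¬ (α 0 (m • x + z) = 0 ∨ 0 < α 0 (m • x + z) * α 0 y') := fun h9 =>
    hz m (hy'.1.of_face h6 (face_of_side h5 h' hy'.2 h7 h9)).2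
  push Not at h8 h9
  have h10 : α 0 y' ≠ 0 := fun h10 => by
    refine hz m (hy'.1.of_face h6 fun i => ?_).2
    rcases h' i with h11 | h11
    · exact Or.inl (hy'.flat _ i (h5 i h11 y' h10))
    · rcases h7 i with h12 | h12
      · simp [h12] at h11
      · refine Or.inr (not_le.1 fun h3 => ?_)
        nlinarith [mul_pos h11 h12, mul_nonneg (neg_nonneg.2 h3) (mul_self_nonneg (G.l i x))]
  have h11 := lt_of_le_of_ne hc.2 (mul_ne_zero hc.1 h10)
  have h12 := lt_of_le_of_ne h8.2 (mul_ne_zero h8.1 hc.1)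
  have h13 := lt_of_le_of_ne h9.2 (mul_ne_zero h9.1 h10)
  nlinarith [mul_pos_of_neg_of_neg h12 h13, mul_pos (neg_pos.2 h11) (mul_self_pos.2 h8.1)]

/-- **MISS** -/
theorem missStmt : MissStmt := by
  intro K _ _ n b G x y C E hx hy h hE hE'
  obtain ⟨h1, h2, h3, α, -, h4⟩ := hx
  have hx : G.Ef x := ⟨h1, h2⟩
  have hnb : ¬ Big (G.P x) := fun h => Gm.bdy_iff.1 h3 (hx.big_iff.1 h)
  obtain ⟨e, f, h5, h6⟩ := G.prime E hE.1
  have h7 := C.exc hy hE' h6
  have h7' : C.pi e = -(G.c • pr ℂ f) := eq_neg_of_add_eq_zero_left h7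
  have h8 : ¬ ∀ j, α j e = 0 := fun h8 => by
    have h9 : (C.pi e + G.c • pr ℂ f).val E = (0 : BD ℂ K).val E := by rw [h7]
    rw [val_add, C.eq_flat hx h (fun i hi => h4 i hi e h8) hE, ← val_add, ← smul_add, val_nsmul,
      val_zero] at h9
    exact (one_lt_pow₀ h5 G.c_pos.ne').ne' h9
  obtain ⟨β, -, -, h9⟩ := exists_det α h8
  have h10 : ∀ z, β z = 0 → ∃ m : ℕ, 0 < m ∧ Car (G.P x) (m • C.pi z) := fun z hz => by
    obtain ⟨m, hm, u, h10⟩ := h9 z hz
    refine ⟨m, hm, ?_⟩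
    convert (C.car_flat hx h fun i hi => h4 i hi _ h10).sub (((car_pr f).nsmul G.c).zsmul u) using 1
    rw [map_sub, map_nsmul, map_zsmul, h7']
    module
  refine ⟨fun V hV hVE => ?_, C.mfs hy hx h h3 β h10, fun w hw h11 h12 h13 => ?_⟩
  · by_contra hc
    obtain ⟨v, g, h11, h12⟩ := G.prime V hV.1
    have h13 : C.pi v = -(G.c • pr ℂ g) := eq_neg_of_add_eq_zero_left (C.exc hy hc h12)
    by_cases h14 : β v = 0
    · obtain ⟨m, hm, u, h15⟩ := h9 v h14
      have h16 := C.eq_flat hx h (fun i hi => h4 i hi _ h15) hV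
      have h17 : G.c • G.D (m • v - u • e) - C.pi (m • v - u • e) =
          G.c • (m • (G.D v + pr ℂ g) - u • (G.D e + pr ℂ f)) := by
        rw [map_sub, map_sub, map_nsmul, map_nsmul, map_zsmul, map_zsmul, h7', h13]
        module
      have h18 : (G.c • (m • (G.D v + pr ℂ g) - u • (G.D e + pr ℂ f))).val V = 1 := by
        rw [← h17, val_sub, h16, div_self (val_ne _ _)]
      rw [val_nsmul, val_sub, val_zsmul, h6 V hV.1 hVE, one_zpow, div_one, val_nsmul] at h18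
      exact (one_lt_pow₀ (one_lt_pow₀ h11 hm.ne') G.c_pos.ne').ne' h18
    · obtain ⟨m, hm, h15⟩ := h10 (β v • y - β y • v) (cross_zero β y v)
      have h16 : Car (G.P x) ((m * β v) • G.P y) := by
        convert h15.sub ((((car_pr g).nsmul G.c).zsmul (β y)).nsmul m) using 1
        rw [map_sub, map_zsmul, map_zsmul, h13, C.pi_self hy]
        module
      exact hnb (big_of_car (car_natAbs h16) ((hy.1.big_iff.2 hy.big).nsmul
        (Int.natAbs_pos.2 (mul_ne_zero (Int.natCast_pos.2 hm).ne' h14))))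
  · obtain ⟨s, t, h14, h15⟩ := C.rank_one β h10 y w
    rw [C.pi_self hy, C.face w hw h12] at h15
    have h16 : s ≠ 0 := by
      rintro rfl
      rw [zero_smul, zero_add] at h15
      exact hnb (big_of_car (car_natAbs h15) ((hw.big_iff.2 h13).nsmul
        (Int.natAbs_pos.2 (h14.resolve_left fun h => h rfl))))
    have h17 := ((Gm.car_face hx hw h11).trans hw.free h15).sub ((car_self hw.free).zsmul t)
    rw [add_sub_cancel_right] at h17
    exact car_of_nsmul hw.free hy.1.free (Int.natAbs_pos.2 h16) (car_natAbs h17)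

end Crest.Agent.X262.Sark
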